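import Vale.Agent.P130.Lebesgue.Defs
import Vale.Agent.P110.Exist.Chirp

/-!
# One branch: a quadratic phase with flat harmonics linear in the harmonic

On residues modulo `q = K / m` the phase is a Gauss sum and along them a chirp of modulus
`M = q (m j) ^ 2`; the two Gauss constants cancel exactly, so the transform is
`√N e (m σ (w / m))` on the cells `[a, b)`.
-/

namespace Vale.Agent.P130.Lebesgue

open MeasureTheory Set
open Vale.Agent.P110.Exist (ee norm_ee ee_add ee_zero ee_neg ee_int ee_add_int gauss0 norm_gauss0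
  sum_ee_mul sum_quad_lin chirp_sum_mod)
open scoped ComplexConjugate

noncomputable section

namespace Branch

open Finset (range)

/-- `e` is the exponential of the chirp file. -/
lemma e_eq_ee : e = ee := rfl

lemma continuous_ee : Continuous ee := by
  unfold ee
  fun_prop

lemma sum_range_mul (f : ℕ → ℂ) (A : ℕ) : ∀ B : ℕ,
    ∑ t ∈ range (A * B), f t = ∑ b ∈ range B, ∑ a ∈ range A, f (a + A * b)
  | 0 => by simp
  | B + 1 => by
    rw [Nat.mul_succ, Finset.sum_range_add, Finset.sum_range_succ, sum_range_mul f A B]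
    simp only [add_comm (A * B)]

/-- Gauss sums of a square multiple of an even modulus. -/
lemma gauss0_mul_sq {n p : ℕ} (hn : 0 < n) (hev : Even n) (hp : 0 < p) :
    gauss0 (n * p ^ 2) = (p : ℂ) * gauss0 n := by
  obtain ⟨d, hd⟩ := hev
  have hd' : (n : ℝ) = 2 * d := by rw [hd]; push_cast; ring
  have hpR : (p : ℝ) ≠ 0 := by positivity
  have hnR : (n : ℝ) ≠ 0 := by positivity
  have hdR : (d : ℝ) ≠ 0 := fun h => hnR (by rw [hd', h, mul_zero])
  have key : ∀ a b : ℕ, ee (((a + n * p * b : ℕ) : ℝ) ^ 2 / (2 * ((n * p ^ 2 : ℕ) : ℝ))) =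
      ee ((a : ℝ) ^ 2 / (2 * ((n * p ^ 2 : ℕ) : ℝ))) * ee (((a : ℤ) : ℝ) * b / p) := by
    intro a b
    rw [← ee_add, ← ee_add_int ((a : ℝ) ^ 2 / (2 * ((n * p ^ 2 : ℕ) : ℝ)) + ((a : ℤ) : ℝ) * b / p)
      ((d : ℤ) * b ^ 2)]
    congr 1
    push_cast
    rw [hd']
    field_simp
    ring
  rw [gauss0, show n * p ^ 2 = n * p * p by ring, sum_range_mul _ (n * p) p, Finset.sum_comm]
  rw [show n * p * p = n * p ^ 2 by ring]
  simp only [key, ← Finset.mul_sum, sum_ee_mul p hp]
  rw [mul_comm n p, sum_range_mul _ p n, gauss0, Finset.mul_sum]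
  refine Finset.sum_congr rfl fun c _ => ?_
  rw [Finset.sum_eq_single 0]
  · rw [if_pos (by push_cast; simp), mul_comm]
    congr 2
    push_cast
    field_simp
    ring
  · intro r hr h0
    rw [if_neg, mul_zero]
    intro hdd
    rw [Int.natCast_dvd_natCast, Nat.dvd_add_left (dvd_mul_right p c)] at hdd
    exact absurd (Nat.le_of_dvd (Nat.pos_of_ne_zero h0) hdd)
      (not_le.2 (Finset.mem_range.1 hr))
  · simp [hp]

lemma fract_sub_mem_iff {a b : ℝ} (ha : 0 ≤ a) (hb : b ≤ 1) (u : ℝ) :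
    Int.fract u ∈ Ico a b ↔ Int.fract (u - a) ∈ Ico 0 (b - a) := by
  have h0 := Int.fract_nonneg u
  have h1 := Int.fract_lt_one u
  constructor
  · rintro ⟨h2, h3⟩
    rw [show u - a = (Int.fract u - a) + ⌊u⌋ by rw [Int.fract]; ring, Int.fract_add_intCast,
      Int.fract_eq_self.2 ⟨by linarith, by linarith⟩]
    exact ⟨by linarith, by linarith⟩
  · rintro ⟨h2, h3⟩
    rw [show u = (Int.fract (u - a) + a) + ⌊u - a⌋ by rw [Int.fract]; ring, Int.fract_add_intCast,
      Int.fract_eq_self.2 ⟨by linarith, by linarith⟩]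
    exact ⟨by linarith, by linarith⟩

/-! ### The phase and its transform -/

/-- The quadratic phase. -/
def phase (K : ℕ) (a : ℝ) (N : ℕ) (l : ℕ) : ℝ :=
  a / K * l + (-1 / (2 * K) + 1 / (2 * K * N)) * (l : ℝ) ^ 2

/-- The phase of the transform. -/
def sigmaFun (K : ℕ) (a : ℝ) (j : ℕ) (y : ℝ) : ℝ :=
  (⌊(K : ℝ) * y - a⌋ : ℝ) ^ 2 / (2 * K) - K * (j : ℝ) ^ 2 * Int.fract ((K : ℝ) * y - a) ^ 2 / 2

lemma measurable_sigmaFun (K : ℕ) (a : ℝ) (j : ℕ) : Measurable (sigmaFun K a j) := by
  have h : Measurable fun y : ℝ => (K : ℝ) * y - a := by fun_prop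
  have h1 : Measurable fun y : ℝ => ((⌊(K : ℝ) * y - a⌋ : ℤ) : ℝ) :=
    (measurable_from_top (f := fun k : ℤ => (k : ℝ))).comp (Int.measurable_floor.comp h)
  have h2 : Measurable fun y : ℝ => Int.fract ((K : ℝ) * y - a) := measurable_fract.comp h
  exact ((h1.pow_const 2).div_const _).sub (((h2.pow_const 2).const_mul _).div_const _)

variable {W : ℝ → ℂ} {C Lp δ lam a : ℝ} {q m j L N M : ℕ}

/-- The smoothed transform. -/
lemma smooth_transform
    (hC : ∀ M : ℕ, 0 < M → Even M → ∀ (y : ℝ) (T : Finset ℤ),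
      (∀ t : ℤ, W (t / M) ≠ 0 → t ∈ T) →
        ‖(∑ t ∈ T, W (t / M) * ee ((t : ℝ) ^ 2 / (2 * M) - y * t))
            - gauss0 M * ee (-((M : ℝ) * (y - ⌊y - 0⌋) ^ 2) / 2) * W (y - ⌊y - 0⌋)‖
          ≤ C / Real.sqrt M)
    (hC0 : 0 ≤ C) (hsupp : ∀ x, W x ≠ 0 → δ < x ∧ x < lam - δ) (hδ : 0 < δ) (hlam : lam ≤ 1)
    (hLip : ∀ x y, ‖W x - W y‖ ≤ Lp * |x - y|) (hLp : 0 ≤ Lp)
    (hq : 0 < q) (hev : Even q) (hm : 0 < m) (hj : 0 < j) (hN : N = (q * m * j) ^ 2)
    (hM : M = q * (m * j) ^ 2)
    (hqN : (q : ℝ) ≤ δ * N) (hL : lam * N ≤ L) (hLN : L ≤ N) (w : ℝ) :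
    ‖(∑ l ∈ range L, W (((l / q : ℕ) : ℝ) / M) * ee ((m : ℝ) * phase (q * m) a N l - l * w))
        - (Real.sqrt N : ℂ) * W (Int.fract ((q : ℝ) * w - a)) *
          ee ((m : ℝ) * sigmaFun (q * m) a j (w / m))‖ ≤ q * (C + Lp * q) := by
  obtain ⟨d, hd⟩ := hev
  have hd' : (q : ℝ) = 2 * d := by rw [hd]; push_cast; ring
  have hqR : (0 : ℝ) < q := by exact_mod_cast hq
  have hmR : (0 : ℝ) < m := by exact_mod_cast hm
  have hjR : (0 : ℝ) < j := by exact_mod_cast hj
  have hdR : (d : ℝ) ≠ 0 := fun h => hqR.ne' (by rw [hd', h, mul_zero])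
  have hMev : Even M := by rw [hM]; exact (show Even q from ⟨d, hd⟩).mul_right _
  have hMpos : 0 < M := by rw [hM]; positivity
  have hNM : N = q * M := by rw [hN, hM]; ring
  have hMR : (0 : ℝ) < M := by exact_mod_cast hMpos
  have hNR : (N : ℝ) = q * M := by rw [hNM]; push_cast; ring
  have hNpos : (0 : ℝ) < N := by rw [hNR]; positivity
  have hMval : (M : ℝ) = q * ((m : ℝ) * j) ^ 2 := by rw [hM]; push_cast; ring
  set t : ℝ := Int.fract ((q : ℝ) * w - a) with ht
  set k : ℤ := ⌊(q : ℝ) * w - a⌋ with hk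
  have hwt : (q : ℝ) * w - a = k + t := (Int.floor_add_fract _).symm
  -- to the range below `N` and residues
  have hext : ∑ l ∈ range L, W (((l / q : ℕ) : ℝ) / M) *
      ee ((m : ℝ) * phase (q * m) a N l - l * w) =
      ∑ l ∈ range (q * M), W (((l / q : ℕ) : ℝ) / M) *
      ee ((m : ℝ) * phase (q * m) a N l - l * w) := by
    rw [← hNM]
    refine Finset.sum_subset (Finset.range_subset_range.2 hLN) fun l _ hl => ?_
    rw [mul_eq_zero]
    left
    by_contra h
    obtain ⟨-, h2⟩ := hsupp _ h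
    have h3 : (l : ℝ) < q * ((l / q : ℕ) : ℝ) + q := by
      exact_mod_cast (Nat.lt_mul_div_succ l hq).trans_eq (by rw [Nat.mul_succ])
    rw [div_lt_iff₀ hMR] at h2
    have h4 : (L : ℝ) ≤ l := by exact_mod_cast not_lt.1 fun h => hl (Finset.mem_range.2 h)
    have h5 : (q : ℝ) * ((l / q : ℕ) : ℝ) < q * ((lam - δ) * M) := mul_lt_mul_of_pos_left h2 hqR
    rw [hNR] at hqN hL
    nlinarith
  rw [hext, sum_range_mul _ q M, Finset.sum_comm]
  set ρ : ℕ → ℂ := fun r =>
    ee (-(r : ℝ) ^ 2 / (2 * q) + (r : ℝ) ^ 2 / (2 * q * N) + r * (a / q - w)) with hρ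
  set Inner : ℕ → ℂ := fun r => ∑ i ∈ (range M).map Nat.castEmbedding,
    W ((i : ℤ) / M) * ee ((i : ℝ) ^ 2 / (2 * M) - ((q : ℝ) * w - a - r / N) * i) with hInner
  have hsplit : ∀ r ∈ range q, ∑ i ∈ range M, W ((((r + q * i) / q : ℕ) : ℝ) / M) *
      ee ((m : ℝ) * phase (q * m) a N (r + q * i) - (r + q * i : ℕ) * w) = ρ r * Inner r := by
    intro r hr
    simp only [hInner]
    rw [Finset.sum_map, Finset.mul_sum]
    refine Finset.sum_congr rfl fun i _ => ?_
    rw [Nat.add_mul_div_left _ _ hq, Nat.div_eq_of_lt (Finset.mem_range.1 hr), zero_add,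
      Nat.castEmbedding_apply, Int.cast_natCast, mul_left_comm, hρ, ← ee_add]
    congr 1
    rw [← ee_add_int ((m : ℝ) * phase (q * m) a N (r + q * i) - ((r + q * i : ℕ) : ℝ) * w)
      ((i : ℤ) * r + d * i ^ 2)]
    congr 1
    simp only [phase]
    push_cast
    rw [hNR, hd']
    field_simp
    ring
  rw [Finset.sum_congr rfl hsplit]
  -- the chirps
  set G : ℕ → ℂ := fun r =>
    gauss0 M * ee (-((M : ℝ) * (t - r / N) ^ 2) / 2) * W (t - r / N) with hG
  have hchirp : ∀ r ∈ range q, ‖Inner r - G r‖ ≤ C := by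
    intro r hr
    set z : ℝ := (q : ℝ) * w - a - r / N with hz
    have h := hC M hMpos hMev z ((range M).map Nat.castEmbedding) (fun i hi => by
      obtain ⟨h1, h2⟩ := hsupp _ hi
      have hi0 : (0 : ℝ) < i := (div_pos_iff_of_pos_right hMR).1 (hδ.trans h1)
      have hi1 : (i : ℝ) < M := (div_lt_one hMR).1 (by linarith)
      rw [Finset.mem_map]
      refine ⟨i.toNat, Finset.mem_range.2 ?_, ?_⟩
      · have : i < (M : ℤ) := by exact_mod_cast hi1
        omega
      · rw [Nat.castEmbedding_apply, Int.toNat_of_nonneg (by exact_mod_cast hi0.le)])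
    rw [sub_zero, show z - (⌊z⌋ : ℝ) = Int.fract z from rfl] at h
    have hrN : (r : ℝ) / N < δ := by
      rw [div_lt_iff₀ hNpos]
      exact lt_of_lt_of_le (by exact_mod_cast Finset.mem_range.1 hr) hqN
    have hr0 : 0 ≤ (r : ℝ) / N := by positivity
    have ht0 := Int.fract_nonneg ((q : ℝ) * w - a)
    have ht1 := Int.fract_lt_one ((q : ℝ) * w - a)
    rw [← ht] at ht0 ht1
    have hzf : z = t - r / N + k := by rw [hz, hwt]; ring
    have hfr : ee (-((M : ℝ) * Int.fract z ^ 2) / 2) * W (Int.fract z) =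
        ee (-((M : ℝ) * (t - r / N) ^ 2) / 2) * W (t - r / N) := by
      by_cases h0 : t - (r : ℝ) / N < 0
      · have e1 : W (t - r / N) = 0 := by
          by_contra hne
          linarith [(hsupp _ hne).1]
        have e2 : W (Int.fract z) = 0 := by
          by_contra hne
          obtain ⟨h1, h2⟩ := hsupp _ hne
          have hδ1 : δ < 1 := h1.trans (Int.fract_lt_one z)
          rw [hzf, Int.fract_add_intCast, show t - (r : ℝ) / N = (t - r / N + 1) - ((1 : ℤ) : ℝ) by
            push_cast; ring, Int.fract_sub_intCast, Int.fract_eq_self.2 ⟨by linarith, by linarith⟩]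
            at h2
          linarith
        rw [e1, e2, mul_zero, mul_zero]
      · rw [hzf, Int.fract_add_intCast, Int.fract_eq_self.2 ⟨by linarith, by linarith⟩]
    have hgoal : ‖Inner r - G r‖ ≤ C / Real.sqrt M := by
      rw [hG]
      simp only
      rw [mul_assoc, ← hfr, ← mul_assoc]
      exact h
    exact hgoal.trans (div_le_self hC0 (Real.one_le_sqrt.2 (by exact_mod_cast hMpos)))
  -- the Gauss sum
  have hmain : ∀ r : ℕ, ρ r * G r = gauss0 M * ee (-((M : ℝ) * t ^ 2) / 2) *
      ee (-(r : ℝ) ^ 2 / (2 * q) - k * r / q) * W (t - r / N) := by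
    intro r
    simp only [hρ, hG]
    rw [show ee (-(r : ℝ) ^ 2 / (2 * q) + (r : ℝ) ^ 2 / (2 * q * N) + r * (a / q - w)) *
        (gauss0 M * ee (-((M : ℝ) * (t - r / N) ^ 2) / 2) * W (t - r / N)) =
      gauss0 M * (ee (-(r : ℝ) ^ 2 / (2 * q) + (r : ℝ) ^ 2 / (2 * q * N) + r * (a / q - w)) *
        ee (-((M : ℝ) * (t - r / N) ^ 2) / 2)) * W (t - r / N) by ring,
      ← ee_add, mul_assoc (gauss0 M) (ee _) (ee _), ← ee_add]
    congr 3
    rw [show w = ((k : ℝ) + t + a) / q by rw [eq_div_iff hqR.ne']; linarith, hNR]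
    field_simp
    ring
  have hgsum : ∑ r ∈ range q, ee (-(r : ℝ) ^ 2 / (2 * q) - k * r / q) =
      ee ((k : ℝ) ^ 2 / (2 * q)) * conj (gauss0 q) := by
    have h := congrArg conj (sum_quad_lin hq ⟨d, hd⟩ 0 (-k))
    rw [map_sum, map_mul, ← ee_neg] at h
    rw [show (k : ℝ) ^ 2 / (2 * q) = -(-(((-k : ℤ) : ℝ) ^ 2) / (2 * q)) by push_cast; ring, ← h]
    refine Finset.sum_congr rfl fun r _ => ?_
    rw [← ee_neg]
    congr 1
    push_cast
    ring
  have hsq : Real.sqrt N = (q : ℝ) * m * j := by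
    rw [hN]
    push_cast
    exact Real.sqrt_sq (by positivity)
  have hfinal : ∑ r ∈ range q, gauss0 M * ee (-((M : ℝ) * t ^ 2) / 2) *
      ee (-(r : ℝ) ^ 2 / (2 * q) - k * r / q) * W t =
      (Real.sqrt N : ℂ) * W t * ee ((m : ℝ) * sigmaFun (q * m) a j (w / m)) := by
    rw [← Finset.sum_mul, ← Finset.mul_sum, hgsum, hM,
      gauss0_mul_sq hq ⟨d, hd⟩ (Nat.mul_pos hm hj), hsq]
    have hGG : gauss0 q * conj (gauss0 q) = (q : ℂ) := by
      rw [Complex.mul_conj', norm_gauss0 hq ⟨d, hd⟩, ← Complex.ofReal_pow,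
        Real.sq_sqrt hqR.le, Complex.ofReal_natCast]
    rw [show ((m * j : ℕ) : ℂ) * gauss0 q * ee (-(((q * (m * j) ^ 2 : ℕ) : ℝ) * t ^ 2) / 2) *
        (ee ((k : ℝ) ^ 2 / (2 * q)) * conj (gauss0 q)) * W t =
      ((m * j : ℕ) : ℂ) * (gauss0 q * conj (gauss0 q)) * W t *
        (ee (-(((q * (m * j) ^ 2 : ℕ) : ℝ) * t ^ 2) / 2) * ee ((k : ℝ) ^ 2 / (2 * q))) by ring,
      hGG, ← ee_add]
    have e1 : ((q * m : ℕ) : ℝ) * (w / m) - a = (q : ℝ) * w - a := by push_cast; field_simp
    congr 1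
    · push_cast; ring
    · congr 1
      rw [sigmaFun, e1, ← hk, ← ht]
      push_cast
      field_simp
      ring
  rw [← hfinal, ← Finset.sum_sub_distrib]
  refine (norm_sum_le _ _).trans ((Finset.sum_le_card_nsmul _ _ (C + Lp * q) fun r hr => ?_).trans_eq
    (by rw [Finset.card_range, nsmul_eq_mul]))
  have hr' : (r : ℝ) ≤ q := by exact_mod_cast (Finset.mem_range.1 hr).le
  calc ‖ρ r * Inner r - gauss0 M * ee (-((M : ℝ) * t ^ 2) / 2) *
        ee (-(r : ℝ) ^ 2 / (2 * q) - k * r / q) * W t‖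
      = ‖ρ r * (Inner r - G r) + gauss0 M * ee (-((M : ℝ) * t ^ 2) / 2) *
        ee (-(r : ℝ) ^ 2 / (2 * q) - k * r / q) * (W (t - r / N) - W t)‖ := by
          rw [mul_sub (ρ r), hmain r]; congr 1; ring
    _ ≤ C + Lp * q := by
      refine (norm_add_le _ _).trans (add_le_add ?_ ?_)
      · rw [norm_mul, hρ, norm_ee, one_mul]; exact hchirp r hr
      · rw [norm_mul, norm_mul, norm_mul, norm_ee, norm_ee, mul_one, mul_one,
          norm_gauss0 hMpos hMev]
        have h2 : ‖W (t - r / N) - W t‖ ≤ Lp * ((r : ℝ) / N) := by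
          refine (hLip _ _).trans (le_of_eq ?_)
          rw [sub_sub_cancel_left, abs_neg, abs_of_nonneg (by positivity)]
        refine (mul_le_mul_of_nonneg_left h2 (Real.sqrt_nonneg _)).trans ?_
        rw [mul_left_comm]
        refine mul_le_mul_of_nonneg_left ?_ hLp
        have h3 : Real.sqrt M ≤ N := by
          refine (Real.sqrt_le_left hNpos.le).2 ?_
          have h1 : (1 : ℝ) ≤ q := by exact_mod_cast hq
          have h4 : (1 : ℝ) ≤ M := by exact_mod_cast hMpos
          rw [hNR]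
          nlinarith [mul_le_mul h1 h4 zero_le_one (by positivity)]
        calc Real.sqrt M * ((r : ℝ) / N) ≤ (N : ℝ) * ((r : ℝ) / N) :=
              mul_le_mul_of_nonneg_right h3 (by positivity)
          _ = r := by field_simp
          _ ≤ q := hr'

/-! ### Integrals over a period -/

lemma integral_ee (n : ℤ) : ∫ w in (0 : ℝ)..1, ee (n * w) = if n = 0 then 1 else 0 := by
  split_ifs with h
  · subst h; simp [ee_zero]
  · have hc : ((2 * Real.pi * n : ℝ) : ℂ) * Complex.I ≠ 0 := by
      refine mul_ne_zero (Complex.ofReal_ne_zero.2 ?_) Complex.I_ne_zero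
      positivity
    have : ∀ w : ℝ, ee (n * w) = Complex.exp (((2 * Real.pi * n : ℝ) : ℂ) * Complex.I * w) := by
      intro w; rw [ee]; congr 1; push_cast; ring
    simp only [this]
    rw [integral_exp_mul_complex hc]
    have h1 : Complex.exp (((2 * Real.pi * n : ℝ) : ℂ) * Complex.I * ((1 : ℝ) : ℂ)) = 1 := by
      rw [show ((2 * Real.pi * n : ℝ) : ℂ) * Complex.I * ((1 : ℝ) : ℂ) =
        (n : ℂ) * (2 * Real.pi * Complex.I) by push_cast; ring]
      exact Complex.exp_int_mul_two_pi_mul_I n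
    rw [h1]
    simp

/-- Parseval. -/
lemma integral_sq_trig (L : ℕ) (c : ℕ → ℂ) :
    ∫ w in (0 : ℝ)..1, ‖∑ l ∈ range L, c l * ee (-((l : ℝ) * w))‖ ^ 2 =
      ∑ l ∈ range L, ‖c l‖ ^ 2 := by
  apply Complex.ofReal_injective
  rw [← intervalIntegral.integral_ofReal]
  push_cast
  have e : ∀ w : ℝ, ((‖∑ l ∈ range L, c l * ee (-((l : ℝ) * w))‖ : ℂ)) ^ 2 =
      ∑ l ∈ range L, ∑ i ∈ range L, c l * conj (c i) * ee ((((i : ℤ) - l : ℤ) : ℝ) * w) := by
    intro w
    rw [← Complex.mul_conj', map_sum, Finset.sum_mul_sum]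
    refine Finset.sum_congr rfl fun l _ => Finset.sum_congr rfl fun i _ => ?_
    rw [map_mul, ← ee_neg, mul_mul_mul_comm, ← ee_add]
    congr 2
    push_cast
    ring
  simp only [e]
  have hi : ∀ l i : ℕ, IntervalIntegrable
      (fun w : ℝ => c l * conj (c i) * ee ((((i : ℤ) - l : ℤ) : ℝ) * w)) volume 0 1 :=
    fun l i => ((continuous_ee.comp (continuous_const.mul continuous_id)).const_mul _
      : Continuous _).intervalIntegrable _ _
  have hsum : ∀ l : ℕ, IntervalIntegrable (fun w : ℝ =>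
      ∑ i ∈ range L, c l * conj (c i) * ee ((((i : ℤ) - l : ℤ) : ℝ) * w)) volume 0 1 :=
    fun l => by
      refine Continuous.intervalIntegrable ?_ _ _
      exact continuous_finsetSum _ fun i _ =>
        continuous_const.mul (continuous_ee.comp (continuous_const.mul continuous_id))
  rw [intervalIntegral.integral_finsetSum fun l _ => hsum l]
  refine Finset.sum_congr rfl fun l hl => ?_
  rw [intervalIntegral.integral_finsetSum fun i _ => hi l i]
  simp only [intervalIntegral.integral_const_mul, integral_ee, sub_eq_zero, Nat.cast_inj, mul_ite,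
    mul_one, mul_zero]
  rw [Finset.sum_ite_eq', if_pos hl, Complex.mul_conj']

lemma integral_periodic_comp {g : ℝ → ℝ} (hg : Function.Periodic g 1)
    (hi : ∀ s t : ℝ, IntervalIntegrable g volume s t) {q : ℕ} (hq : 0 < q) (a : ℝ) :
    ∫ w in (0 : ℝ)..1, g ((q : ℝ) * w - a) = ∫ x in (0 : ℝ)..1, g x := by
  rw [intervalIntegral.integral_comp_mul_sub g (Nat.cast_ne_zero.2 hq.ne') a]
  have h := hg.intervalIntegral_add_zsmul_eq (q : ℤ) (-a) hi
  rw [zsmul_one, Int.cast_natCast, hg.intervalIntegral_add_eq (-a) 0, zero_add] at h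
  rw [show (q : ℝ) * 0 - a = -a by ring, show (q : ℝ) * 1 - a = -a + q by ring, h,
    zsmul_eq_mul, Int.cast_natCast, smul_eq_mul]
  field_simp

lemma intervalIntegrable_of_le {f : ℝ → ℝ} (hf : Measurable f) {B : ℝ} (hB : ∀ x, ‖f x‖ ≤ B)
    (s t : ℝ) : IntervalIntegrable f volume s t :=
  (intervalIntegrable_const (c := B)).mono_fun' hf.aestronglyMeasurable
    (Filter.Eventually.of_forall hB)

/-- A smooth window. -/
lemma exists_window {lam δ : ℝ} (hδ : 0 < δ) (h4 : 4 * δ < lam) (hlam : lam ≤ 1) :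
    ∃ W : ℝ → ℂ, ContDiff ℝ 4 W ∧ (∀ x, W x ≠ 0 → δ < x ∧ x < lam - δ) ∧
      (∀ x, 2 * δ ≤ x → x ≤ lam - 2 * δ → W x = 1) ∧ (∀ x, ‖1 - W x‖ ≤ 1 ∧ ‖W x‖ ≤ 1) ∧
      ∃ Lp : ℝ, 0 ≤ Lp ∧ ∀ x y, ‖W x - W y‖ ≤ Lp * |x - y| := by
  let b : ContDiffBump (lam / 2) :=
    ⟨lam / 2 - 2 * δ, lam / 2 - δ, by linarith, by linarith⟩
  set W : ℝ → ℂ := fun x => ((b x : ℝ) : ℂ) with hW
  have hsupp : ∀ x, W x ≠ 0 → δ < x ∧ x < lam - δ := by
    intro x hx
    have : x ∈ Function.support b := fun h => hx (by simp [hW, h])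
    rw [b.support_eq, Metric.mem_ball, Real.dist_eq, abs_lt] at this
    exact ⟨by linarith [this.1, show b.rOut = lam / 2 - δ from rfl],
      by linarith [this.2, show b.rOut = lam / 2 - δ from rfl]⟩
  have hcd : ContDiff ℝ 4 W := Complex.ofRealCLM.contDiff.comp b.contDiff
  have hcs : HasCompactSupport W :=
    HasCompactSupport.intro (isCompact_Icc (a := (0 : ℝ)) (b := 1)) fun x hx => by
      by_contra h
      obtain ⟨h1, h2⟩ := hsupp x h
      exact hx ⟨by linarith, by linarith⟩
  refine ⟨W, hcd, hsupp, fun x h1 h2 => ?_, fun x => ?_, ?_⟩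
  · simp only [hW]
    rw [b.one_of_mem_closedBall, Complex.ofReal_one]
    rw [Metric.mem_closedBall, Real.dist_eq, abs_le]
    exact ⟨by linarith [show b.rIn = lam / 2 - 2 * δ from rfl],
      by linarith [show b.rIn = lam / 2 - 2 * δ from rfl]⟩
  · have h1 : (1 : ℂ) - W x = ((1 - b x : ℝ) : ℂ) := by simp [hW]
    rw [h1, hW, Complex.norm_real, Complex.norm_real, Real.norm_of_nonneg (sub_nonneg.2 b.le_one),
      Real.norm_of_nonneg b.nonneg]
    exact ⟨by linarith [b.nonneg (x := x)], b.le_one⟩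
  · obtain ⟨c, hc⟩ := ContDiff.lipschitzWith_of_hasCompactSupport hcs hcd (by norm_num)
    exact ⟨c, c.coe_nonneg, fun x y => by
      simpa [dist_eq_norm, Real.dist_eq] using hc.dist_le_mul x y⟩

lemma norm_add_add_sq_le (x y z : ℂ) :
    ‖x + y + z‖ ^ 2 ≤ 3 * (‖x‖ ^ 2 + ‖y‖ ^ 2 + ‖z‖ ^ 2) := by
  have h := pow_le_pow_left₀ (norm_nonneg _) (norm_add₃_le (a := x) (b := y) (c := z)) 2
  nlinarith [sq_nonneg (‖x‖ - ‖y‖), sq_nonneg (‖y‖ - ‖z‖), sq_nonneg (‖x‖ - ‖z‖)]

lemma branchTarget_neg (K : ℕ) (a b : ℝ) (N : ℕ) (σ : ℝ → ℝ) (n : ℤ) (w : ℝ) :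
    branchTarget K a b N σ (-n) w = conj (branchTarget K a b N σ n (-w)) := by
  simp only [branchTarget, Int.cast_neg, div_neg, neg_div, neg_mul, e_eq_ee, ee_neg]
  by_cases h : Int.fract (-((K : ℝ) * (w / n))) ∈ Ico a b
  · simp [indicator_of_mem h]
  · simp [indicator_of_notMem h]

end Branch

open Branch Finset in
theorem branchGoal : BranchGoal := by
  intro K a b η hK ha hab hb hη
  set lam : ℝ := b - a with hlamdef
  have hlam0 : 0 < lam := sub_pos.2 hab
  have hlam1 : lam ≤ 1 := by rw [hlamdef]; linarith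
  set δ : ℝ := min (lam / 5) (η / 36) with hδdef
  have hδ : 0 < δ := lt_min (by positivity) (by positivity)
  have h4δ : 4 * δ < lam := by linarith [min_le_left (lam / 5) (η / 36)]
  have hδη : δ ≤ η / 36 := min_le_right _ _
  obtain ⟨W, hW, hsupp, hone, hnorm, Lp, hLp, hLip⟩ := exists_window hδ h4δ hlam1
  obtain ⟨C, hC0, hC⟩ := chirp_sum_mod (a := 0) hW fun x hx => by
    obtain ⟨h1, h2⟩ := hsupp x hx
    constructor <;> linarith
  set P0 : ℝ := K * (C + Lp * K) with hP0
  refine ⟨⌈9 * (P0 ^ 2 + K + 3) / η + K / δ⌉₊ + 1, fun j hj => ⟨phase K a ((K * j) ^ 2),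
    sigmaFun K a j, measurable_sigmaFun K a j, fun m hm => ?_⟩⟩
  have hj0 : 0 < j := lt_of_lt_of_le (Nat.succ_pos _) hj
  set N : ℕ := (K * j) ^ 2 with hNdef
  have hjN : (j : ℝ) ≤ N := by
    have : j ≤ N := (Nat.le_mul_of_pos_left j hK).trans (Nat.le_self_pow two_ne_zero _)
    exact_mod_cast this
  have hbig : 9 * (P0 ^ 2 + K + 3) / η + K / δ ≤ N := by
    refine le_trans (Nat.le_ceil _) (le_trans ?_ hjN)
    exact_mod_cast le_trans (Nat.le_succ _) hj
  have hKδ : (K : ℝ) ≤ δ * N := by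
    have : (K : ℝ) / δ ≤ N := le_trans (le_add_of_nonneg_left (by positivity)) hbig
    rw [div_le_iff₀ hδ] at this
    linarith
  have hηN : 9 * (P0 ^ 2 + K + 3) ≤ η * N := by
    have : 9 * (P0 ^ 2 + K + 3) / η ≤ N := le_trans (le_add_of_nonneg_right (by positivity)) hbig
    rw [div_le_iff₀ hη] at this
    linarith
  set L : ℕ := ⌈(b - a) * (N : ℝ)⌉₊ with hLdef
  have hLlam : lam * N ≤ L := Nat.le_ceil _
  have hLN : L ≤ N := Nat.ceil_le.2 (mul_le_of_le_one_left (Nat.cast_nonneg _) hlam1)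
  -- periodicity of the target, any sign
  have hpos : ∀ n q : ℕ, 0 < n → Even q → K = q * n →
      Function.Periodic (branchTarget K a b N (sigmaFun K a j) n) 1 ∧
        ∫ w in (0 : ℝ)..1, ‖(∑ l ∈ range L, e (((n : ℤ) : ℝ) * phase K a N l - l * w)) -
          branchTarget K a b N (sigmaFun K a j) n w‖ ^ 2 ≤ η * N := by
    intro n q hn hev hKq
    have hq : 0 < q := Nat.pos_of_ne_zero fun h => by subst h; omega
    have hqR : (0 : ℝ) < q := by exact_mod_cast hq
    have hnR : (0 : ℝ) < n := by exact_mod_cast hn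
    have hKR : (K : ℝ) = q * n := by rw [hKq]; push_cast; ring
    have hu : ∀ w : ℝ, (K : ℝ) * (w / ((n : ℤ) : ℝ)) = q * w := fun w => by
      rw [hKR, Int.cast_natCast]; field_simp
    have htarget : ∀ w : ℝ, branchTarget K a b N (sigmaFun K a j) n w =
        (Real.sqrt N : ℂ) * (Set.Ico (0 : ℝ) lam).indicator (fun _ => 1) (Int.fract ((q : ℝ) * w - a))
          * ee ((n : ℝ) * sigmaFun K a j (w / n)) := by
      intro w
      simp only [branchTarget, hu]
      simp only [e_eq_ee, Int.cast_natCast]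
      have hiff := fract_sub_mem_iff ha hb ((q : ℝ) * w)
      by_cases h : Int.fract ((q : ℝ) * w) ∈ Set.Ico a b
      · rw [Set.indicator_of_mem h, Set.indicator_of_mem (hiff.1 h), mul_one]
      · rw [Set.indicator_of_notMem h, Set.indicator_of_notMem fun h' => h (hiff.2 h'), mul_zero,
          zero_mul]
    refine ⟨fun w => ?_, ?_⟩
    · obtain ⟨d, hd⟩ := hev
      have hd' : (q : ℝ) = 2 * d := by rw [hd]; push_cast; ring
      rw [htarget, htarget]
      have e1 : (q : ℝ) * (w + 1) - a = (q : ℝ) * w - a + ((q : ℤ) : ℝ) := by push_cast; ring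
      rw [e1, Int.fract_add_intCast]
      congr 1
      rw [← ee_add_int ((n : ℝ) * sigmaFun K a j (w / n)) (⌊(q : ℝ) * w - a⌋ + d)]
      congr 1
      have e2 : (K : ℝ) * ((w + 1) / n) - a = (q : ℝ) * w - a + ((q : ℤ) : ℝ) := by
        rw [hKR]; push_cast; field_simp; ring
      have e3 : (K : ℝ) * (w / n) - a = (q : ℝ) * w - a := by rw [hKR]; field_simp
      simp only [sigmaFun, e2, e3, Int.fract_add_intCast, Int.floor_add_intCast]
      push_cast
      rw [hKR, hd']
      have hdR : (d : ℝ) ≠ 0 := fun h => hqR.ne' (by rw [hd', h, mul_zero])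
      field_simp
      ring
    set M : ℕ := q * (n * j) ^ 2 with hMdef
    have hqK : (q : ℝ) ≤ K := by
      rw [hKR]; exact le_mul_of_one_le_right hqR.le (by exact_mod_cast hn)
    have hMR : (0 : ℝ) < M := by rw [hMdef]; positivity
    have hNM : (N : ℝ) = q * M := by
      rw [hNdef, hMdef, hKq]; push_cast; ring
    have hN0 : (0 : ℝ) ≤ N := Nat.cast_nonneg N
    set cW : ℕ → ℂ := fun l => W (((l / q : ℕ) : ℝ) / M) with hcW
    set dif : ℕ → ℂ := fun l => (1 - cW l) * ee ((n : ℝ) * phase K a N l) with hdif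
    set g : ℝ → ℝ := fun x => ‖W (Int.fract x) -
      (Set.Ico (0 : ℝ) lam).indicator (fun _ => (1 : ℂ)) (Int.fract x)‖ ^ 2 with hg
    have hgper : Function.Periodic g 1 := fun x => by simp [hg, Int.fract_add_one]
    have hgm : Measurable g :=
      (((hW.continuous.measurable.comp measurable_fract).sub
        ((measurable_const.indicator measurableSet_Ico).comp measurable_fract)).norm).pow_const 2
    have hg1 : ∀ x, 0 ≤ g x ∧ g x ≤ 1 := fun x => by
      refine ⟨sq_nonneg _, pow_le_one₀ (norm_nonneg _) ?_⟩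
      by_cases h : Int.fract x ∈ Set.Ico (0 : ℝ) lam
      · rw [Set.indicator_of_mem h, norm_sub_rev]; exact (hnorm _).1
      · rw [Set.indicator_of_notMem h, sub_zero]; exact (hnorm _).2
    have hgi : ∀ s t : ℝ, IntervalIntegrable g volume s t :=
      intervalIntegrable_of_le hgm (B := 1) fun x => by
        rw [Real.norm_of_nonneg (hg1 x).1]; exact (hg1 x).2
    have hgint : ∫ x in (0 : ℝ)..1, g x ≤ 4 * δ := by
      rw [intervalIntegral.integral_of_le zero_le_one, integral_Ioc_eq_integral_Ioo]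
      set A := Set.Icc (0 : ℝ) (2 * δ)
      set A' := Set.Icc (lam - 2 * δ) lam
      have hiA : ∀ B : Set ℝ, MeasurableSet B → IntegrableOn (B.indicator fun _ => (1 : ℝ))
          (Set.Ioo (0 : ℝ) 1) := fun B hB =>
        (integrableOn_const (by simp [Real.volume_Ioo])).indicator hB
      have hgio : IntegrableOn g (Set.Ioo (0 : ℝ) 1) :=
        ((hgi 0 1).1).mono_set Set.Ioo_subset_Ioc_self
      refine le_trans (setIntegral_mono_on hgio ((hiA A measurableSet_Icc).add
        (hiA A' measurableSet_Icc)) measurableSet_Ioo fun x hx => ?_) ?_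
      · have hfx : Int.fract x = x := Int.fract_eq_self.2 ⟨hx.1.le, hx.2⟩
        have n1 : ∀ B : Set ℝ, 0 ≤ B.indicator (fun _ => (1 : ℝ)) x := fun B =>
          Set.indicator_nonneg (fun _ _ => zero_le_one) x
        simp only [Pi.add_apply]
        by_cases h1 : x ∈ A
        · rw [Set.indicator_of_mem h1]; linarith [(hg1 x).2, n1 A']
        by_cases h2 : x ∈ A'
        · rw [Set.indicator_of_mem h2]; linarith [(hg1 x).2, n1 A]
        rw [Set.indicator_of_notMem h1, Set.indicator_of_notMem h2, add_zero]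
        have h3 : 2 * δ < x := lt_of_not_ge fun h => h1 ⟨hx.1.le, h⟩
        simp only [hg, hfx]
        by_cases h4 : x < lam
        · have h5 : x < lam - 2 * δ := lt_of_not_ge fun h => h2 ⟨h, h4.le⟩
          rw [hone x h3.le h5.le, Set.indicator_of_mem (show x ∈ Set.Ico (0 : ℝ) lam from ⟨hx.1.le, h4⟩)]; simp
        · have h5 : W x = 0 := by
            by_contra h
            linarith [(hsupp x h).2, not_lt.1 h4]
          rw [h5, Set.indicator_of_notMem fun h : x ∈ Set.Ico (0 : ℝ) lam => h4 h.2]; simp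
      · have hle : ∀ u v : ℝ, u ≤ v → ∫ x in Set.Ioo (0 : ℝ) 1,
            (Set.Icc u v).indicator (fun _ => (1 : ℝ)) x ≤ v - u := by
          intro u v huv
          rw [setIntegral_indicator measurableSet_Icc, setIntegral_const, smul_eq_mul, mul_one]
          refine (measureReal_mono Set.inter_subset_right (by simp [Real.volume_Icc])).trans ?_
          rw [Real.volume_real_Icc_of_le huv]
        rw [integral_add' (hiA A measurableSet_Icc) (hiA A' measurableSet_Icc)]
        linarith [hle 0 (2 * δ) (by linarith), hle (lam - 2 * δ) lam (by linarith)]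
    -- the changed samples
    have hdiff : ∑ l ∈ range L, ‖dif l‖ ^ 2 ≤ 4 * δ * N + K + 3 := by
      set S := range ⌈2 * δ * N + K⌉₊ ∪ Finset.Ico ⌊(lam - 2 * δ) * N⌋₊ L with hS
      have hd1 : ∀ l ∈ range L, ‖dif l‖ ^ 2 ≤ if l ∈ S then 1 else 0 := by
        intro l hl
        have hnn : ‖dif l‖ = ‖1 - cW l‖ := by rw [hdif, norm_mul, norm_ee, mul_one]
        rw [hnn]
        split_ifs with h
        · exact pow_le_one₀ (norm_nonneg _) (hnorm _).1
        · rw [hS, Finset.mem_union, Finset.mem_range, Finset.mem_Ico, not_or, not_lt] at h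
          have h1 : 2 * δ * N + K ≤ l :=
            (Nat.le_ceil _).trans (by exact_mod_cast h.1)
          have h2 : (l : ℝ) < (lam - 2 * δ) * N := by
            have h' : l < ⌊(lam - 2 * δ) * N⌋₊ := by
              by_contra h'
              exact h.2 ⟨not_lt.1 h', Finset.mem_range.1 hl⟩
            exact Nat.lt_of_lt_floor h'
          have h3 : (l : ℝ) < q * ((l / q : ℕ) : ℝ) + q := by
            exact_mod_cast (Nat.lt_mul_div_succ l hq).trans_eq (by rw [Nat.mul_succ])
          have h4 : (q : ℝ) * ((l / q : ℕ) : ℝ) ≤ l := by exact_mod_cast Nat.mul_div_le l q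
          rw [hcW]
          simp only
          rw [hone _ ?_ ?_, sub_self, norm_zero]
          · simp
          · rw [le_div_iff₀ hMR]
            refine le_of_mul_le_mul_left ?_ hqR
            rw [hNM] at h1
            linarith
          · rw [div_le_iff₀ hMR]
            refine le_of_mul_le_mul_left ?_ hqR
            rw [hNM] at h2
            linarith
      refine (Finset.sum_le_sum hd1).trans ?_
      rw [← Finset.sum_filter, Finset.sum_const, nsmul_one]
      have hcard := (Finset.card_le_card (s := (range L).filter fun l => l ∈ S) (t := S)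
        fun l hl => (Finset.mem_filter.1 hl).2).trans (Finset.card_union_le _ _)
      rw [Finset.card_range, Nat.card_Ico] at hcard
      refine le_trans (Nat.cast_le.2 hcard) ?_
      push_cast
      have c1 := Nat.ceil_lt_add_one (show (0 : ℝ) ≤ 2 * δ * N + K by positivity)
      have c2 := Nat.lt_floor_add_one ((lam - 2 * δ) * N)
      have c3 := Nat.ceil_lt_add_one (show (0 : ℝ) ≤ (b - a) * N by positivity)
      have c4 : ⌊(lam - 2 * δ) * N⌋₊ ≤ L := by
        refine Nat.floor_le_of_le (le_trans ?_ hLlam)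
        exact mul_le_mul_of_nonneg_right (by linarith) hN0
      rw [Nat.cast_sub c4]
      rw [← hLdef, ← hlamdef] at c3
      linarith
    -- the three errors
    set R : ℝ → ℝ := fun w => 3 * (‖∑ l ∈ range L, dif l * ee (-((l : ℝ) * w))‖ ^ 2 + P0 ^ 2 +
      N * g ((q : ℝ) * w - a)) with hR
    set F : ℝ → ℝ := fun w => ‖(∑ l ∈ range L, e (((n : ℤ) : ℝ) * phase K a N l - l * w)) -
      branchTarget K a b N (sigmaFun K a j) n w‖ ^ 2 with hFdef
    have hFR : ∀ w, F w ≤ R w := by
      intro w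
      have hsm := smooth_transform (W := W) (a := a) hC hC0 hsupp hδ hlam1 hLip hLp hq hev hn hj0
        (show N = (q * n * j) ^ 2 by rw [hNdef, hKq]) hMdef (hqK.trans hKδ) hLlam hLN w
      rw [← hKq] at hsm
      have hP : (q : ℝ) * (C + Lp * q) ≤ P0 := by rw [hP0]; gcongr
      simp only [hFdef, hR, htarget, e_eq_ee, Int.cast_natCast]
      have e1 : (∑ l ∈ range L, ee ((n : ℝ) * phase K a N l - l * w)) -
          (Real.sqrt N : ℂ) * (Set.Ico (0 : ℝ) lam).indicator (fun _ => 1)
            (Int.fract ((q : ℝ) * w - a)) * ee ((n : ℝ) * sigmaFun K a j (w / n)) =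
          (∑ l ∈ range L, dif l * ee (-((l : ℝ) * w))) +
          ((∑ l ∈ range L, cW l * ee ((n : ℝ) * phase K a N l - l * w)) - (Real.sqrt N : ℂ) *
            W (Int.fract ((q : ℝ) * w - a)) * ee ((n : ℝ) * sigmaFun K a j (w / n))) +
          (Real.sqrt N : ℂ) * (W (Int.fract ((q : ℝ) * w - a)) -
            (Set.Ico (0 : ℝ) lam).indicator (fun _ => 1) (Int.fract ((q : ℝ) * w - a))) *
            ee ((n : ℝ) * sigmaFun K a j (w / n)) := by
        have e2 : ∑ l ∈ range L, ee ((n : ℝ) * phase K a N l - l * w) =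
            (∑ l ∈ range L, dif l * ee (-((l : ℝ) * w))) +
              ∑ l ∈ range L, cW l * ee ((n : ℝ) * phase K a N l - l * w) := by
          rw [← Finset.sum_add_distrib]
          refine Finset.sum_congr rfl fun l _ => ?_
          rw [hdif, mul_assoc, ← ee_add, ← sub_eq_add_neg]
          ring
        rw [e2]
        ring
      rw [e1]
      refine (norm_add_add_sq_le _ _ _).trans (mul_le_mul_of_nonneg_left ?_ (by norm_num))
      refine add_le_add (add_le_add le_rfl (pow_le_pow_left₀ (norm_nonneg _) (hsm.trans hP) 2)) ?_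
      rw [norm_mul, norm_mul, norm_ee, mul_one, mul_pow, Complex.norm_real,
        Real.norm_of_nonneg (Real.sqrt_nonneg _), Real.sq_sqrt hN0]
    have hFm : Measurable F := by
      have h1 : Measurable fun w : ℝ => ∑ l ∈ range L, e (((n : ℤ) : ℝ) * phase K a N l - l * w) := by
        simp only [e_eq_ee]
        exact Finset.measurable_sum _ fun l _ => continuous_ee.measurable.comp (by fun_prop)
      have h2 : Measurable (branchTarget K a b N (sigmaFun K a j) n) := by
        rw [funext htarget]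
        exact (measurable_const.mul ((measurable_const.indicator measurableSet_Ico).comp
          (measurable_fract.comp (by fun_prop)))).mul (continuous_ee.measurable.comp
            (measurable_const.mul ((measurable_sigmaFun K a j).comp (by fun_prop))))
      exact ((h1.sub h2).norm).pow_const 2
    have hi1 : IntervalIntegrable (fun w : ℝ => ‖∑ l ∈ range L, dif l * ee (-((l : ℝ) * w))‖ ^ 2)
        volume 0 1 :=
      ((continuous_finsetSum _ fun l _ => continuous_const.mul (continuous_ee.comp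
        (continuous_const.mul continuous_id).neg)).norm.pow 2).intervalIntegrable _ _
    have hi2 : IntervalIntegrable (fun w : ℝ => (N : ℝ) * g ((q : ℝ) * w - a)) volume 0 1 :=
      (intervalIntegrable_of_le (hgm.comp (by fun_prop)) (B := 1) (fun x => by
        rw [Function.comp_apply, Real.norm_of_nonneg (hg1 _).1]; exact (hg1 _).2) 0 1).const_mul _
    have hRi : IntervalIntegrable R volume 0 1 :=
      ((hi1.add intervalIntegrable_const).add hi2).const_mul 3
    have hFi : IntervalIntegrable F volume 0 1 :=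
      hRi.mono_fun' hFm.aestronglyMeasurable (Filter.Eventually.of_forall fun w => by
        show ‖F w‖ ≤ R w
        rw [Real.norm_of_nonneg (show 0 ≤ F w from sq_nonneg _)]; exact hFR w)
    refine (intervalIntegral.integral_mono_on zero_le_one hFi hRi fun w _ => hFR w).trans ?_
    rw [intervalIntegral.integral_const_mul,
      intervalIntegral.integral_add (hi1.add intervalIntegrable_const) hi2,
      intervalIntegral.integral_add hi1 intervalIntegrable_const, integral_sq_trig,
      intervalIntegral.integral_const, intervalIntegral.integral_const_mul,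
      integral_periodic_comp hgper hgi hq a]
    simp only [sub_zero, one_smul]
    have h6 : (N : ℝ) * ∫ x in (0 : ℝ)..1, g x ≤ N * (4 * δ) := mul_le_mul_of_nonneg_left hgint hN0
    nlinarith
  -- both signs
  have hm0 : m ≠ 0 := by
    rintro rfl
    rw [mul_zero, zero_dvd_iff, Nat.cast_eq_zero] at hm
    omega
  obtain ⟨c, hc⟩ : 2 * m.natAbs ∣ K := by
    have := Int.natAbs_dvd_natAbs.2 hm
    simpa [Int.natAbs_mul] using this
  obtain ⟨hper, hint⟩ := hpos m.natAbs (2 * c) (Int.natAbs_pos.2 hm0) (even_two_mul c)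
    (by rw [hc]; ring)
  rcases Int.natAbs_eq m with h | h
  · rw [← h] at hper hint
    exact ⟨hper, hint⟩
  · rw [h]
    have hconj : ∀ w, ‖(∑ l ∈ range L, e ((((-(m.natAbs : ℤ)) : ℤ) : ℝ) * phase K a N l - l * w)) -
        branchTarget K a b N (sigmaFun K a j) (-(m.natAbs : ℤ)) w‖ =
        ‖(∑ l ∈ range L, e (((m.natAbs : ℤ) : ℝ) * phase K a N l - l * (-w))) -
        branchTarget K a b N (sigmaFun K a j) m.natAbs (-w)‖ := by
      intro w
      rw [branchTarget_neg, ← Complex.norm_conj, map_sub, Complex.conj_conj, map_sum]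
      congr 2
      refine Finset.sum_congr rfl fun l _ => ?_
      simp only [e_eq_ee, ← ee_neg]
      congr 1
      push_cast
      ring
    refine ⟨fun w => ?_, ?_⟩
    · rw [branchTarget_neg, branchTarget_neg, neg_add, ← sub_eq_add_neg, hper.sub_eq]
    · simp only [hconj]
      rw [intervalIntegral.integral_comp_neg (fun w => ‖(∑ l ∈ range L,
        e (((m.natAbs : ℤ) : ℝ) * phase K a N l - l * w)) -
        branchTarget K a b N (sigmaFun K a j) m.natAbs w‖ ^ 2)]
      have hper2 : Function.Periodic (fun w => ‖(∑ l ∈ range L,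
          e (((m.natAbs : ℤ) : ℝ) * phase K a N l - l * w)) -
          branchTarget K a b N (sigmaFun K a j) m.natAbs w‖ ^ 2) 1 := fun w => by
        simp only [hper w, e_eq_ee]
        congr 3
        refine Finset.sum_congr rfl fun l _ => ?_
        rw [show ((m.natAbs : ℤ) : ℝ) * phase K a N l - l * (w + 1) =
          ((m.natAbs : ℤ) : ℝ) * phase K a N l - l * w + ((-(l : ℤ) : ℤ) : ℝ) by push_cast; ring,
          ee_add_int]
      have h0 := hper2.intervalIntegral_add_eq (-1) 0
      rw [neg_add_cancel, zero_add] at h0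
      rw [neg_zero, h0]
      exact hint

end

end Vale.Agent.P130.Lebesgue
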