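import Vale.Agent.P130.Lebesgue.Coherent.Estimate

/-!
# Coherent phases from branches, tilings and packings

`BranchGoal → TilingGoal → PackGoal → CoherentGoal`.
-/

namespace Vale.Agent.P130.Lebesgue.Coherent

open MeasureTheory Finset

/-- The product of the primes up to `M`. -/
def primeProd (M : ℕ) : ℕ := ∏ p ∈ (Finset.range (M + 1)).filter Nat.Prime, p

theorem primeProd_pos (M : ℕ) : 0 < primeProd M :=
  Finset.prod_pos fun _ hp => (Finset.mem_filter.1 hp).2.pos

theorem coprime_one_add (M k : ℕ) {f : ℤ} (hf : ∀ p, p.Prime → p ∣ f.natAbs → p ≤ M) :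
    Nat.Coprime f.natAbs (1 + primeProd M * k) := by
  refine Nat.coprime_of_dvd fun p hp hpf hpk => ?_
  have hP : p ∣ primeProd M := Finset.dvd_prod_of_mem _
    (Finset.mem_filter.2 ⟨Finset.mem_range.2 (Nat.lt_succ_of_le (hf p hp hpf)), hp⟩)
  exact hp.not_dvd_one ((Nat.dvd_add_left (dvd_mul_of_dvd_left hP k)).1 hpk)

/-- The multiplier and the sample are determined by their product. -/
theorem mult_unique (M : ℕ) {f g : ℤ} (hf0 : f ≠ 0)
    (hf : ∀ p, p.Prime → p ∣ f.natAbs → p ≤ M) (hg : ∀ p, p.Prime → p ∣ g.natAbs → p ≤ M)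
    (l k : ℕ) (h : f * (1 + primeProd M * l) = g * (1 + primeProd M * k)) : f = g ∧ l = k := by
  have h' : f * ((1 + primeProd M * l : ℕ) : ℤ) = g * ((1 + primeProd M * k : ℕ) : ℤ) := by
    push_cast; exact h
  have hn : f.natAbs * (1 + primeProd M * l) = g.natAbs * (1 + primeProd M * k) := by
    have := congrArg Int.natAbs h'
    rwa [Int.natAbs_mul, Int.natAbs_mul, Int.natAbs_natCast, Int.natAbs_natCast] at this
  have e1 : f.natAbs = g.natAbs := Nat.dvd_antisymm
    ((coprime_one_add M k hf).dvd_of_dvd_mul_right (hn ▸ dvd_mul_right _ _))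
    ((coprime_one_add M l hg).dvd_of_dvd_mul_right (hn.symm ▸ dvd_mul_right _ _))
  have hlk : l = k := by
    rw [← e1] at hn
    have := Nat.eq_of_mul_eq_mul_left (Int.natAbs_pos.2 hf0) hn
    exact Nat.eq_of_mul_eq_mul_left (primeProd_pos M) (by omega)
  subst hlk
  exact ⟨mul_right_cancel₀ (by positivity : ((1 + primeProd M * l : ℕ) : ℤ) ≠ 0) h', rfl⟩

/-- A point of a cell. -/
theorem floor_cell {Q : ℕ} (hQ : 0 < Q) (c : ℕ) {y : ℝ} (h1 : (c : ℝ) / Q ≤ Int.fract y)
    (h2 : Int.fract y < ((c : ℝ) + 1) / Q) : ⌊(Q : ℝ) * Int.fract y⌋₊ = c := by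
  have hQ' : (0 : ℝ) < Q := Nat.cast_pos.2 hQ
  rw [div_le_iff₀ hQ'] at h1
  rw [lt_div_iff₀ hQ'] at h2
  rw [Nat.floor_eq_iff (mul_nonneg hQ'.le (Int.fract_nonneg _))]
  constructor <;> linarith

theorem hit_eq_one {d a b u : ℝ} (h : hit d a b u = 1) :
    a ≤ Int.fract (d * u) ∧ Int.fract (d * u) < b := by
  by_contra hc
  rw [hit, Set.indicator_of_notMem (s := Set.Ico a b) (fun hm => hc ⟨hm.1, hm.2⟩)] at h
  exact zero_ne_one h

/-- The total weight of the shapes of a tiling is at most one. -/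
theorem tiling_weight_le_one {n Q : ℕ} (hQ : 0 < Q) (G : Fin n → Finset ℤ) (C : Fin n → Finset ℕ)
    (hC : ∀ i, C i ⊆ Finset.range Q) (hG : ∀ i, ∀ f ∈ G i, f ≠ 0)
    (hd : ∀ᵐ u : ℝ, ∀ i j, ∀ f ∈ G i, ∀ g ∈ G j,
      InCells Q (C i) (f * u) → InCells Q (C j) (g * u) → i = j ∧ f = g) :
    ∑ p ∈ Finset.univ.sigma C, ((G p.1).card : ℝ) * (1 / Q) ≤ 1 := by
  classical
  set T := (Finset.univ.sigma C).sigma fun p => G p.1 with hT
  set F : (Σ p : (Σ _ : Fin n, ℕ), ℤ) → ℝ → ℝ := fun x u =>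
    hit (x.2 : ℝ) ((x.1.2 : ℝ) / Q) (((x.1.2 : ℝ) + 1) / Q) u with hF
  have hQ' : (0 : ℝ) < Q := Nat.cast_pos.2 hQ
  have hcell : ∀ x ∈ T, x.1.2 < Q := fun x hx => Finset.mem_range.1
    (hC _ (Finset.mem_sigma.1 (Finset.mem_sigma.1 hx).1).2)
  have hI : ∀ x ∈ T, IntervalIntegrable (F x) volume 0 1 := fun x _ =>
    ii_of_bound (measurable_hit _ _ _) (C := 1)
      (fun u => by rw [abs_of_nonneg (hit_nonneg _ _ _ _)]; exact hit_le_one _ _ _ _) 0 1
  have hint : ∀ x ∈ T, ∫ u in (0 : ℝ)..1, F x u = 1 / Q := fun x hx => by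
    have h1 : (x.1.2 : ℝ) + 1 ≤ Q := by exact_mod_cast hcell x hx
    rw [hF]
    simp only
    rw [integral_hit (hG _ _ (Finset.mem_sigma.1 hx).2) (by positivity)
      (by gcongr; linarith) (by rw [div_le_one hQ']; exact h1)]
    ring
  have hle : ∀ᵐ u : ℝ, ∑ x ∈ T, F x u ≤ 1 := by
    filter_upwards [hd] with u hu
    by_cases hex : ∀ x ∈ T, F x u = 0
    · rw [Finset.sum_eq_zero hex]; exact zero_le_one
    push Not at hex
    obtain ⟨x, hx, hx0⟩ := hex
    have h01 : ∀ y, F y u = 0 ∨ F y u = 1 := fun y => by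
      simp only [hF, hit, Set.indicator_apply]
      split_ifs <;> simp
    have hx1 := hit_eq_one ((h01 x).resolve_left hx0)
    refine le_trans (le_of_eq (Finset.sum_eq_single x (fun y hy hyx => ?_) (fun hn => absurd hx hn)))
      (hit_le_one _ _ _ _)
    refine (h01 y).resolve_right fun hy1 => hyx ?_
    have hy2 := hit_eq_one hy1
    obtain ⟨⟨i, a⟩, f⟩ := x
    obtain ⟨⟨j, b⟩, g⟩ := y
    simp only [hT, Finset.mem_sigma, Finset.mem_univ, true_and] at hx hy
    simp only at hx1 hy2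
    have ha := floor_cell hQ a hx1.1 hx1.2
    have hb := floor_cell hQ b hy2.1 hy2.2
    obtain ⟨rfl, rfl⟩ := hu i j f hx.2 g hy.2 (by rw [InCells, ha]; exact hx.1)
      (by rw [InCells, hb]; exact hy.1)
    rw [ha] at hb
    subst hb
    rfl
  calc ∑ p ∈ Finset.univ.sigma C, ((G p.1).card : ℝ) * (1 / Q)
      = ∑ x ∈ T, (1 / (Q : ℝ)) := by
        refine Eq.trans (Finset.sum_congr rfl fun p _ => ?_) (Finset.sum_sigma _ _ _).symm
        rw [Finset.sum_const, nsmul_eq_mul]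
    _ = ∫ u in (0 : ℝ)..1, ∑ x ∈ T, F x u := by
        rw [intervalIntegral.integral_finsetSum hI, Finset.sum_congr rfl hint]
    _ ≤ ∫ _u in (0 : ℝ)..1, (1 : ℝ) := intervalIntegral.integral_mono_ae zero_le_one
        ((IntervalIntegrable.sum T hI).congr fun u _ => by simp) intervalIntegrable_const hle
    _ = 1 := by simp

end Coherent

open Coherent MeasureTheory Finset in
/-- Branches, tilings and packings give coherent phases. -/
theorem coherent_of_modules : BranchGoal → TilingGoal → PackGoal → CoherentGoal := by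
  classical
  intro hB hT hPack M η hη N₀
  have hη' : (0 : ℝ) < η / 60 := by positivity
  obtain ⟨n, Q, G, C, hQ, hGC, hsm, hdisjT, hcovT, hbadT⟩ := hT M (η / 60) hη'
  have hQ' : (0 : ℝ) < Q := Nat.cast_pos.2 hQ
  -- the shapes
  set S : Finset (Σ _ : Fin n, ℕ) := Finset.univ.sigma C with hS
  set ε : Fin S.card ≃ S := S.equivFin.symm with hε
  set G' : Fin S.card → Finset ℤ := fun x => G (ε x).1.1 with hG'
  have hsumS : ∀ F : (Σ _ : Fin n, ℕ) → ℝ, ∑ x, F (ε x).1 = ∑ p ∈ S, F p := fun F =>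
    (ε.sum_comp fun p : S => F p.1).trans (Finset.sum_coe_sort S F)
  have hsigma : ∀ F : Fin n → ℝ,
      ∑ p ∈ S, F p.1 * (1 / Q) = ∑ i, F i * (C i).card / Q := fun F => by
    rw [hS, Finset.sum_sigma]
    refine Finset.sum_congr rfl fun i _ => ?_
    simp only [Finset.sum_const, nsmul_eq_mul]
    ring
  set P := primeProd M with hP
  have hG'0 : ∀ x, ∀ f ∈ G' x, f ≠ 0 := fun x f hf => (hsm _ f hf).1
  have hwt : ∑ x, ((G' x).card : ℝ) * (1 / Q) ≤ 1 :=
    (hsumS fun p => ((G p.1).card : ℝ) * (1 / Q)).trans_le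
      (tiling_weight_le_one hQ G C (fun i => (hGC i).2) (fun i f hf => (hsm i f hf).1) hdisjT)
  obtain ⟨r, sh, s, lam, hpos, hfill, hmass, N₁, hpack⟩ :=
    hPack P S.card G' (fun _ => 1 / Q) (η / 60) hη' (primeProd_pos M)
      (fun x => ⟨(hGC _).1, hG'0 x, fun f hf g hg l k he =>
        mult_unique M (hG'0 x f hf) (hsm _ f hf).2 (hsm _ g hg).2 l k he⟩)
      (fun _ => by positivity) hwt
  -- the target intervals
  set cell : Fin r → ℕ := fun k => (ε (sh k)).1.2 with hcelldef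
  set pre : Fin r → Finset (Fin r) :=
    fun k => Finset.univ.filter fun k' => sh k' = sh k ∧ k' < k with hpre
  set lo : Fin r → ℝ := fun k => (cell k : ℝ) / Q + ∑ k' ∈ pre k, lam k' with hlodef
  have hlamnn : ∀ k, 0 ≤ lam k := fun k => (hpos k).2.le
  have hstep : ∀ (k : Fin r) (T : Finset (Fin r)), insert k (pre k) ⊆ T →
      lo k + lam k ≤ (cell k : ℝ) / Q + ∑ k' ∈ T, lam k' := fun k T hT => by
    rw [hlodef]
    simp only
    have h := Finset.sum_le_sum_of_subset_of_nonneg hT fun i _ _ => hlamnn i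
    rw [Finset.sum_insert (by simp [hpre])] at h
    linarith
  have hlo1 : ∀ k, (cell k : ℝ) / Q ≤ lo k := fun k =>
    le_add_of_nonneg_right (Finset.sum_nonneg fun i _ => hlamnn i)
  have hhi1 : ∀ k, lo k + lam k ≤ ((cell k : ℝ) + 1) / Q := fun k => by
    refine (hstep k (Finset.univ.filter fun k' => sh k' = sh k) ?_).trans ?_
    · intro i hi
      rcases Finset.mem_insert.1 hi with rfl | hi
      · simp
      · exact Finset.mem_filter.2 ⟨Finset.mem_univ _, (Finset.mem_filter.1 hi).2.1⟩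
    · rw [add_div]
      linarith [hfill (sh k)]
  have horder : ∀ k k', sh k = sh k' → k < k' → lo k + lam k ≤ lo k' := fun k k' he hlt => by
    refine (hstep k (pre k') ?_).trans (le_of_eq ?_)
    · intro i hi
      simp only [hpre, Finset.mem_insert, Finset.mem_filter, Finset.mem_univ, true_and] at hi ⊢
      rcases hi with rfl | ⟨h1, h2⟩
      · exact ⟨he, hlt⟩
      · exact ⟨h1.trans he, h2.trans hlt⟩
    · rw [hlodef, hcelldef]
      simp only [he]
  have hmemS : ∀ k, cell k ∈ C (ε (sh k)).1.1 := fun k =>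
    (Finset.mem_sigma.1 (ε (sh k)).2).2
  have hlo0 : ∀ k, 0 ≤ lo k := fun k => le_trans (by positivity) (hlo1 k)
  have hhi0 : ∀ k, lo k + lam k ≤ 1 := fun k => by
    refine (hhi1 k).trans ((div_le_one hQ').2 ?_)
    exact_mod_cast Finset.mem_range.1 ((hGC _).2 (hmemS k))
  -- the moduli
  set K : ℕ := 2 * M.factorial * P * ∏ k, s k with hK
  set kk : Fin r → ℕ := fun k => 2 * M.factorial * P * ∏ i ∈ Finset.univ.erase k, s i with hkk
  have hPpos : 0 < P := primeProd_pos M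
  have hkkpos : ∀ k, 0 < kk k := fun k =>
    Nat.mul_pos (Nat.mul_pos (Nat.mul_pos two_pos M.factorial_pos) hPpos)
      (Finset.prod_pos fun i _ => (hpos i).1)
  have hKpos : 0 < K := Nat.mul_pos (Nat.mul_pos (Nat.mul_pos two_pos M.factorial_pos) hPpos)
    (Finset.prod_pos fun i _ => (hpos i).1)
  have hskk : ∀ k, s k * kk k = K := fun k => by
    rw [hK, hkk]
    simp only
    rw [← Finset.mul_prod_erase Finset.univ s (Finset.mem_univ k)]
    ring
  set R : ℕ := ((Finset.univ : Finset (Fin r)).sigma fun k => G' (sh k)).card with hR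
  set ηg : ℝ := 2 * (η / 60) with hηg
  have hηg0 : 0 < ηg := by positivity
  choose j₀ hj₀ using fun k => hB (kk k) (lo k) (lo k + lam k) (ηg / ((R : ℝ) + 1) ^ 2)
    (hkkpos k) (hlo0 k) (lt_add_of_pos_right _ (hpos k).2) (hhi0 k) (by positivity)
  set j : ℕ := (∑ k, j₀ k) + N₀ + N₁ + ⌈(R : ℝ) / ηg⌉₊ + 1 with hj
  have hjle : ∀ k, j₀ k ≤ s k * j := fun k => by
    have h1 : j₀ k ≤ ∑ i, j₀ i :=
      Finset.single_le_sum (fun i _ => Nat.zero_le (j₀ i)) (Finset.mem_univ k)
    exact le_trans (by omega) (Nat.le_mul_of_pos_left j (hpos k).1)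
  choose Φ σ hσ hΦ using fun k => hj₀ k (s k * j) (hjle k)
  have hjN : j ≤ (K * j) ^ 2 :=
    (Nat.le_mul_of_pos_left j hKpos).trans (Nat.le_self_pow two_ne_zero _)
  obtain ⟨c, hrange, hinj⟩ := hpack ((K * j) ^ 2) (by omega)
  let D : Layout :=
    ⟨r, P, K, (K * j) ^ 2, fun k => G' (sh k), c, s, kk, lam, lo, Φ, σ⟩
  refine ⟨(K * j) ^ 2, by omega, D.psi, D.amp, D.sig, D.measurable_amp, D.measurable_sig hσ,
    D.norm_amp, fun m hm hmM => ?_⟩
  have hdiv : ∀ k, 2 * m ∣ (kk k : ℤ) := fun k => by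
    have h1 : m.natAbs ∣ M.factorial := Nat.dvd_factorial (Int.natAbs_pos.2 hm)
      (by have := Int.natCast_natAbs m; omega)
    have h2 : (m : ℤ) ∣ (M.factorial : ℤ) := Int.natAbs_dvd.1 (by exact_mod_cast h1)
    simp only [hkk, Nat.cast_mul, Nat.cast_ofNat]
    exact ((mul_dvd_mul_left (2 : ℤ) h2).trans (dvd_mul_right _ _)).trans (dvd_mul_right _ _)
  have hNk : ∀ k, (kk k * (s k * j)) ^ 2 = (K * j) ^ 2 := fun k => by
    rw [← hskk k]; ring
  have good : D.Good m ηg := by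
    refine ⟨hm, hPpos, hKpos, by show 0 < (K * j) ^ 2; omega, fun k => (hpos k).1, hskk,
      fun k => hG'0 (sh k), hlamnn, hlo0, hhi0, hσ, ?_, ?_, ?_, fun k => ?_, fun k => ?_, ?_, ?_,
      ?_⟩
    · rintro ⟨⟨k, f⟩, l⟩ hx
      simp only [Layout.samples, Layout.pairs, Finset.mem_sigma, Finset.mem_univ, true_and,
        Finset.mem_range] at hx
      exact hrange k f hx.1 l (Nat.lt_ceil.1 hx.2)
    · rintro ⟨⟨k, f⟩, l⟩ hx ⟨⟨k', f'⟩, l'⟩ hy he
      simp only [Finset.mem_coe, Layout.samples, Layout.pairs, Finset.mem_sigma, Finset.mem_univ,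
        true_and, Finset.mem_range] at hx hy
      obtain ⟨rfl, rfl, rfl⟩ :=
        hinj k k' f hx.1 f' hy.1 l l' (Nat.lt_ceil.1 hx.2) (Nat.lt_ceil.1 hy.2) he
      rfl
    · have hd : ((P : ℝ) * K) ≠ 0 := by positivity
      filter_upwards [ae_comp_dilate hdisjT hd] with u hu
      rintro ⟨k, g⟩ hp ⟨k', g'⟩ hq h1 h2
      simp only [Layout.pairs, Finset.mem_sigma, Finset.mem_univ, true_and] at hp hq
      have a1 := hit_eq_one h1
      have a2 := hit_eq_one h2
      have hc : ∀ g : ℤ, ((g * ((D.P : ℤ) * D.K) : ℤ) : ℝ) * u = (g : ℝ) * ((P : ℝ) * K * u) :=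
        fun g => by push_cast; ring
      simp only [hc] at a1 a2
      have c1 := floor_cell hQ (cell k) ((hlo1 k).trans a1.1) (a1.2.trans_le (hhi1 k))
      have c2 := floor_cell hQ (cell k') ((hlo1 k').trans a2.1) (a2.2.trans_le (hhi1 k'))
      obtain ⟨hi, rfl⟩ := hu (ε (sh k)).1.1 (ε (sh k')).1.1 g hp g' hq
        (by rw [InCells, c1]; exact hmemS k) (by rw [InCells, c2]; exact hmemS k')
      have hcc : cell k = cell k' := c1.symm.trans c2
      have hsh : sh k = sh k' :=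
        ε.injective (Subtype.ext (Sigma.ext hi (heq_of_eq hcc)))
      rcases lt_trichotomy k k' with hlt | rfl | hlt
      · exact absurd (a2.1.trans_lt a1.2) (not_lt.2 (horder k k' hsh hlt))
      · rfl
      · exact absurd (a1.1.trans_lt a2.2) (not_lt.2 (horder k' k hsh.symm hlt))
    · have := (hΦ k m (hdiv k)).1
      rw [hNk] at this
      exact this
    · have := (hΦ k m (hdiv k)).2
      rw [hNk, add_sub_cancel_left] at this
      exact this
    · -- the bad multipliers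
      set b : Fin n → ℝ := fun i => (((G i).filter fun g => m * g ∉ G i).card : ℝ) with hb
      show ∑ k, b (ε (sh k)).1.1 * lam k ≤ ηg
      calc ∑ k, b (ε (sh k)).1.1 * lam k
          = ∑ x, b (ε x).1.1 * ∑ k ∈ Finset.univ.filter (fun k => sh k = x), lam k := by
            rw [← Finset.sum_fiberwise Finset.univ sh]
            refine Finset.sum_congr rfl fun x _ => ?_
            rw [Finset.mul_sum]
            exact Finset.sum_congr rfl fun k hk => by rw [(Finset.mem_filter.1 hk).2]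
        _ ≤ ∑ x, b (ε x).1.1 * (1 / Q) := Finset.sum_le_sum fun x _ =>
            mul_le_mul_of_nonneg_left (hfill x) (Nat.cast_nonneg _)
        _ = ∑ i, b i * (C i).card / Q := (hsumS fun p => b p.1 * (1 / Q)).trans (hsigma b)
        _ ≤ η / 60 := hbadT m hm hmM
        _ ≤ ηg := by linarith
    · show 1 - ηg ≤ ∑ k, ((G' (sh k)).card : ℝ) * lam k
      have h1 : ∑ x, ((G' x).card : ℝ) * (1 / Q) = ∑ i, ((G i).card : ℝ) * (C i).card / Q :=
        (hsumS fun p => ((G p.1).card : ℝ) * (1 / Q)).trans (hsigma fun i => ((G i).card : ℝ))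
      linarith
    · show (R : ℝ) ≤ ηg * (((K * j) ^ 2 : ℕ) : ℝ)
      have h1 : ((⌈(R : ℝ) / ηg⌉₊ : ℕ) : ℝ) ≤ (((K * j) ^ 2 : ℕ) : ℝ) := by
        exact_mod_cast (show ⌈(R : ℝ) / ηg⌉₊ ≤ (K * j) ^ 2 by omega)
      have h2 := (Nat.le_ceil ((R : ℝ) / ηg)).trans h1
      rw [div_le_iff₀ hηg0] at h2
      linarith
  refine (Layout.main_bound hηg0.le good).trans (le_of_eq ?_)
  show 30 * (2 * (η / 60)) * (((K * j) ^ 2 : ℕ) : ℝ) = _
  ring

end Vale.Agent.P130.Lebesgue
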