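import Mathlib

/-!
# A probability preserving transformation with simple Lebesgue spectrum: interfaces

The target and the statements of the modules.  See `PROOF.md` in this folder.
-/

namespace Vale.Agent.P130.Lebesgue

open MeasureTheory Filter
open scoped ComplexConjugate Topology

/-- `e x = exp (2 π i x)`. -/
noncomputable def e (x : ℝ) : ℂ := Complex.exp (((2 * Real.pi * x : ℝ) : ℂ) * Complex.I)

/-- The integer iterate of an invertible map. -/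
def iter {X : Type} [MeasurableSpace X] (T : X ≃ᵐ X) (n : ℤ) : X → X :=
  fun x => (T.toEquiv ^ n : Equiv.Perm X) x

/-- The final goal: some automorphism of a standard nonatomic probability space has a vector whose
orbit is an orthonormal basis of the functions of mean zero. -/
def SimpleLebesgueGoal : Prop :=
  ∃ (X : Type) (_ : MeasurableSpace X) (_ : StandardBorelSpace X) (μ : Measure X),
    IsProbabilityMeasure μ ∧ (∀ x, μ {x} = 0) ∧ ∃ T : X ≃ᵐ X, MeasurePreserving T μ μ ∧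
    ∃ g : X → ℂ, MemLp g 2 μ ∧ ∫ x, g x ∂μ = 0 ∧
      (∀ a b : ℤ, ∫ x, conj (g (iter T a x)) * g (iter T b x) ∂μ = if a = b then 1 else 0) ∧
      ∀ f : X → ℂ, MemLp f 2 μ → ∫ x, f x ∂μ = 0 →
        (∀ n : ℤ, ∫ x, conj (g (iter T n x)) * f x ∂μ = 0) → f =ᵐ[μ] 0

/-- Spacers bounded by `S` whose polynomial is flat in mean square for every `x` off `δ`. -/
def FlatSpacerGoal : Prop :=
  ∀ δ η : ℝ, 0 < δ → 0 < η → ∃ S : ℕ, ∀ p₀ : ℕ, ∃ p, p₀ ≤ p ∧ ∃ s : ℕ → ℕ,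
    (∀ j < p, s j < S) ∧ ∀ x ∈ Set.Icc δ (1 - δ),
      ∫ u in (0 : ℝ)..1,
        (‖∑ j ∈ Finset.range p, e (s j * x + j * u)‖ / Real.sqrt p - 1) ^ 2 ≤ η

/-- One phase all of whose harmonics up to `M` have flat transforms with phases linear in the
harmonic. -/
def CoherentGoal : Prop :=
  ∀ (M : ℕ) (η : ℝ), 0 < η → ∀ N₀ : ℕ, ∃ N, N₀ ≤ N ∧ ∃ (ψ : ℕ → ℝ) (A : ℝ → ℂ) (σ : ℝ → ℝ),
    Measurable A ∧ Measurable σ ∧ (∀ u, ‖A u‖ = 1) ∧ ∀ m : ℤ, m ≠ 0 → |m| ≤ M →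
      ∫ u in (0 : ℝ)..1, ‖(∑ t ∈ Finset.range N, e (m * ψ t - t * u)) -
        (Real.sqrt N : ℂ) * A u * e (m * σ u)‖ ^ 2 ≤ η * N

/-- `y` lies in one of the cells `C` of the grid of step `1/Q` of the circle. -/
def InCells (Q : ℕ) (C : Finset ℕ) (y : ℝ) : Prop := ⌊(Q : ℝ) * Int.fract y⌋₊ ∈ C

/-- Sets of cells whose preimages under almost invariant sets of multipliers tile the circle. -/
def TilingGoal : Prop :=
  ∀ (M : ℕ) (η : ℝ), 0 < η → ∃ (n Q : ℕ) (G : Fin n → Finset ℤ) (C : Fin n → Finset ℕ),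
    0 < Q ∧ (∀ i, (G i).Nonempty ∧ C i ⊆ Finset.range Q) ∧
    (∀ i, ∀ f ∈ G i, f ≠ 0 ∧ ∀ p, p.Prime → p ∣ f.natAbs → p ≤ M) ∧
    (∀ᵐ u : ℝ, ∀ i j, ∀ f ∈ G i, ∀ g ∈ G j,
      InCells Q (C i) (f * u) → InCells Q (C j) (g * u) → i = j ∧ f = g) ∧
    1 - η ≤ ∑ i, ((G i).card : ℝ) * (C i).card / Q ∧
    ∀ m : ℤ, m ≠ 0 → |m| ≤ M →
      ∑ i, (((G i).filter fun g => m * g ∉ G i).card : ℝ) * (C i).card / Q ≤ η

/-- The position of the `l`-th sample of the branch `f` of a tube. -/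
def tubePos (P : ℕ) (c : ℤ) (s : ℕ) (f : ℤ) (l : ℕ) : ℤ := c + s * f * (1 + P * l)

/-- Tubes of prescribed shapes and weights pack an interval. -/
def PackGoal : Prop :=
  ∀ (P n : ℕ) (G : Fin n → Finset ℤ) (w : Fin n → ℝ) (η : ℝ), 0 < η → 0 < P →
    (∀ i, (G i).Nonempty ∧ (∀ f ∈ G i, f ≠ 0) ∧
      ∀ f ∈ G i, ∀ g ∈ G i, ∀ l k : ℕ, f * (1 + P * l) = g * (1 + P * k) → f = g ∧ l = k) →
    (∀ i, 0 ≤ w i) → ∑ i, ((G i).card : ℝ) * w i ≤ 1 →
    ∃ (r : ℕ) (sh : Fin r → Fin n) (s : Fin r → ℕ) (lam : Fin r → ℝ),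
      (∀ k, 0 < s k ∧ 0 < lam k) ∧
      (∀ i, ∑ k ∈ Finset.univ.filter (fun k => sh k = i), lam k ≤ w i) ∧
      ∑ i, ((G i).card : ℝ) * w i - η ≤ ∑ k, ((G (sh k)).card : ℝ) * lam k ∧
      ∃ N₀ : ℕ, ∀ N, N₀ ≤ N → ∃ c : Fin r → ℤ,
        (∀ k, ∀ f ∈ G (sh k), ∀ l : ℕ, (l : ℝ) < lam k * N →
          0 ≤ tubePos P (c k) (s k) f l ∧ tubePos P (c k) (s k) f l < N) ∧
        ∀ k k', ∀ f ∈ G (sh k), ∀ f' ∈ G (sh k'), ∀ l l' : ℕ,
          (l : ℝ) < lam k * N → (l' : ℝ) < lam k' * N →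
          tubePos P (c k) (s k) f l = tubePos P (c k') (s k') f' l' → k = k' ∧ f = f' ∧ l = l'

/-- The target of the transform of one branch in harmonic `m`. -/
noncomputable def branchTarget (K : ℕ) (a b : ℝ) (N : ℕ) (σ : ℝ → ℝ) (m : ℤ) (w : ℝ) : ℂ :=
  (Set.Ico a b).indicator (fun _ => (Real.sqrt N : ℂ) * e (m * σ (w / m)))
    (Int.fract (K * (w / m)))

/-- One branch: a quadratic phase on `L = ⌊(b - a) N⌋` samples, `N = (K j)²`, whose harmonics have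
transforms of modulus `√N` on the cells `[a, b)` with phases linear in the harmonic. -/
def BranchGoal : Prop :=
  ∀ (K : ℕ) (a b η : ℝ), 0 < K → 0 ≤ a → a < b → b ≤ 1 → 0 < η →
    ∃ j₀ : ℕ, ∀ j, j₀ ≤ j → ∃ (Φ : ℕ → ℝ) (σ : ℝ → ℝ), Measurable σ ∧
      ∀ m : ℤ, 2 * m ∣ (K : ℤ) →
        Function.Periodic (branchTarget K a b ((K * j) ^ 2) σ m) 1 ∧
        ∫ w in (0 : ℝ)..1,
          ‖(∑ l ∈ Finset.range ⌈(b - a) * ((K * j) ^ 2 : ℕ)⌉₊, e (m * Φ l - l * w)) -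
            branchTarget K a b ((K * j) ^ 2) σ m w‖ ^ 2 ≤ η * ((K * j) ^ 2 : ℕ)

/-- Cutting and spacer data of a rank one construction. -/
structure RankOne where
  p : ℕ → ℕ
  a : ℕ → ℕ → ℕ
  two_le : ∀ k, 2 ≤ p k

namespace RankOne

/-- Heights of the towers. -/
def h (R : RankOne) : ℕ → ℕ
  | 0 => 1
  | k + 1 => R.p k * R.h k + ∑ j ∈ Finset.range (R.p k), R.a k j

/-- The height of the `j`-th copy of tower `k` inside tower `k+1`. -/
def pos (R : RankOne) (k j : ℕ) : ℕ := j * R.h k + ∑ i ∈ Finset.range j, R.a k i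

/-- The polynomial of stage `k`, normalised in mean square. -/
noncomputable def P (R : RankOne) (k : ℕ) (θ : ℝ) : ℂ :=
  (Real.sqrt (R.p k) : ℂ)⁻¹ * ∑ j ∈ Finset.range (R.p k), e (R.pos k j * θ)

/-- The partial Riesz products. -/
noncomputable def riesz (R : RankOne) (k n : ℕ) (θ : ℝ) : ℝ :=
  ∏ i ∈ Finset.Ico k n, ‖R.P i θ‖ ^ 2

end RankOne

/-- The system of cutting and stacking data with finite spacer mass. -/
def RankOneGoal : Prop :=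
  ∀ R : RankOne,
    Summable (fun k => ((∑ j ∈ Finset.range (R.p k), R.a k j : ℕ) : ℝ) / (R.p k * R.h k : ℕ)) →
    ∃ (X : Type) (_ : MeasurableSpace X) (_ : StandardBorelSpace X) (μ : Measure X),
      IsProbabilityMeasure μ ∧ (∀ x, μ {x} = 0) ∧
      ∃ (T : X ≃ᵐ X) (F : ℕ → X → ℂ) (ν : ℕ → ℝ), MeasurePreserving T μ μ ∧
        (∀ k, MemLp (F k) 2 μ ∧ 0 < ν k ∧ ν (k + 1) = ν k / R.p k) ∧
        (∀ k, F k =ᵐ[μ] fun x =>
          ∑ j ∈ Finset.range (R.p k), F (k + 1) (iter T (R.pos k j : ℤ) x)) ∧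
        (∀ k (a b : ℤ), Tendsto
          (fun n => ((ν k : ℝ) : ℂ) * ∫ θ in (0 : ℝ)..1, (R.riesz k n θ : ℂ) * e ((b - a) * θ))
          atTop (𝓝 (∫ x, conj (F k (iter T a x)) * F k (iter T b x) ∂μ))) ∧
        ∀ f : X → ℂ, MemLp f 2 μ →
          (∀ k (a : ℤ), ∫ x, conj (F k (iter T a x)) * f x ∂μ =
            ∫ x, conj (F k x) * f x ∂μ) →
          ∃ c : ℂ, f =ᵐ[μ] fun _ => c

/-- The spectral analysis: flat stages give simple Lebesgue spectrum. -/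
def SpectralGoal : Prop := RankOneGoal → FlatSpacerGoal → SimpleLebesgueGoal

end Vale.Agent.P130.Lebesgue
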