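import Vale.Agent.P130.Lebesgue.Defs

/-!
# P130: bounded spacers with flat polynomials from one coherent phase

`s_j = ⌊S frac (ψ_j + φ)⌋`. The function `t ↦ e (-x ⌊S frac t⌋)` is its mean, which is small for
`x` off `δ`, plus finitely many harmonics, which are flat by coherence, plus a part small in `L²`,
which is small after averaging over `φ`.
-/

namespace Vale.Agent.P130.Lebesgue.Flat

open MeasureTheory Filter
open scoped ComplexConjugate

theorem norm_e (x : ℝ) : ‖e x‖ = 1 := by simp only [e, Complex.norm_exp_ofReal_mul_I]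

theorem e_add (x y : ℝ) : e (x + y) = e x * e y := by
  simp only [e, mul_add, Complex.ofReal_add, add_mul, Complex.exp_add]

theorem e_neg (x : ℝ) : e (-x) = conj (e x) := by
  simp only [e, ← Complex.exp_conj, map_mul, Complex.conj_ofReal, Complex.conj_I]
  congr 1
  push_cast
  ring

theorem continuous_e : Continuous e := by unfold e; fun_prop

theorem measurable_e : Measurable e := continuous_e.measurable

theorem e_int (n : ℤ) : e n = 1 := by
  rw [e]
  convert Complex.exp_int_mul_two_pi_mul_I n using 2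
  push_cast
  ring

theorem norm_e_sub_e_le (a b : ℝ) : ‖e a - e b‖ ≤ 2 * Real.pi * |a - b| := by
  have h : e a - e b = e b * (e (a - b) - 1) := by
    rw [mul_sub, mul_one, ← e_add]
    congr 2
    ring
  rw [h, norm_mul, norm_e, one_mul, e, mul_comm ((2 * Real.pi * (a - b) : ℝ) : ℂ)]
  refine (Real.norm_exp_I_mul_ofReal_sub_one_le).trans (le_of_eq ?_)
  rw [Real.norm_eq_abs, abs_mul, abs_of_pos (by positivity : (0 : ℝ) < 2 * Real.pi)]

theorem integral_e (n : ℤ) : ∫ u in (0 : ℝ)..1, e (n * u) = if n = 0 then 1 else 0 := by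
  split_ifs with h
  · subst h; simp [e]
  · have hc : (2 * Real.pi * Complex.I * n : ℂ) ≠ 0 :=
      mul_ne_zero Complex.two_pi_I_ne_zero (Int.cast_ne_zero.2 h)
    have hfun : (fun u : ℝ => e (n * u)) =
        fun u : ℝ => Complex.exp ((2 * Real.pi * Complex.I * n : ℂ) * u) := by
      funext u; rw [e]; congr 1; push_cast; ring
    rw [hfun, integral_exp_mul_complex hc]
    simp only [Complex.ofReal_one, Complex.ofReal_zero, mul_one, mul_zero, Complex.exp_zero]
    rw [show (2 * Real.pi * Complex.I * n : ℂ) = n * (2 * Real.pi * Complex.I) by ring,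
      Complex.exp_int_mul_two_pi_mul_I, sub_self, zero_div]

theorem bdd_integrable {E : Type*} [NormedAddCommGroup E] [MeasurableSpace E] [BorelSpace E]
    [SecondCountableTopology E] {f : ℝ → E} (hf : Measurable f) {C : ℝ} (hb : ∀ x, ‖f x‖ ≤ C)
    (a b : ℝ) : IntervalIntegrable f volume a b :=
  intervalIntegrable_const (c := C).mono_fun hf.aestronglyMeasurable
    (Eventually.of_forall fun x => (hb x).trans (le_abs_self C))

/-- Parseval for finitely many distinct harmonics. -/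
theorem parseval {ι : Type*} (s : Finset ι) (f : ι → ℤ) (hf : Set.InjOn f s) (r : ι → ℂ) :
    ∫ u in (0 : ℝ)..1, ‖∑ i ∈ s, r i * e (f i * u)‖ ^ 2 = ∑ i ∈ s, ‖r i‖ ^ 2 := by
  classical
  refine Complex.ofReal_injective ?_
  rw [← intervalIntegral.integral_ofReal]
  have hp : ∀ u : ℝ, ((‖∑ i ∈ s, r i * e (f i * u)‖ ^ 2 : ℝ) : ℂ) =
      ∑ i ∈ s, ∑ k ∈ s, r i * conj (r k) * e (((f i - f k : ℤ) : ℝ) * u) := fun u => by
    rw [Complex.ofReal_pow, ← Complex.mul_conj', map_sum, Finset.sum_mul_sum]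
    refine Finset.sum_congr rfl fun i _ => Finset.sum_congr rfl fun k _ => ?_
    rw [map_mul, ← e_neg, Int.cast_sub, sub_mul, sub_eq_add_neg, e_add]
    ring
  simp only [hp]
  rw [intervalIntegral.integral_finsetSum fun i _ => ?_]
  swap
  · exact Continuous.intervalIntegrable (continuous_finsetSum _ fun k _ =>
      continuous_const.mul (continuous_e.comp (by fun_prop))) _ _
  push_cast
  refine Finset.sum_congr rfl fun i hi => ?_
  have hk : ∀ k ∈ s, IntervalIntegrable
      (fun u : ℝ => r i * conj (r k) * e (((f i : ℝ) - (f k : ℝ)) * u)) volume 0 1 :=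
    fun k _ => (continuous_const.mul (continuous_e.comp (by fun_prop))).intervalIntegrable _ _
  rw [intervalIntegral.integral_finsetSum hk, Finset.sum_eq_single i]
  · rw [intervalIntegral.integral_const_mul]
    have := integral_e (f i - f i)
    rw [if_pos (sub_self _)] at this
    push_cast at this
    rw [this, mul_one, Complex.mul_conj']
  · intro k hk hne
    rw [intervalIntegral.integral_const_mul]
    have := integral_e (f i - f k)
    rw [if_neg (sub_ne_zero.2 fun h => hne (hf hk hi h.symm))] at this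
    push_cast at this
    rw [this, mul_zero]
  · exact fun h => absurd hi h

/-- The step function which carries the spacer. -/
noncomputable def stepFn (S : ℕ) (x t : ℝ) : ℂ := e (-((⌊(S : ℝ) * Int.fract t⌋₊ : ℕ) * x))

theorem norm_stepFn (S : ℕ) (x t : ℝ) : ‖stepFn S x t‖ = 1 := norm_e _

theorem measurable_stepFn (S : ℕ) (x : ℝ) : Measurable (stepFn S x) :=
  measurable_e.comp <| Measurable.neg <| Measurable.mul_const
    (measurable_from_nat.comp (Nat.measurable_floor.comp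
      (measurable_const.mul measurable_fract))) _

/-- A Fourier coefficient. -/
noncomputable def coef (F : ℝ → ℂ) (m : ℤ) : ℂ := ∫ t in (0 : ℝ)..1, F t * e (-(m * t))

/-- The Fourier remainder. -/
noncomputable def rest (F : ℝ → ℂ) (M : ℕ) (t : ℝ) : ℂ :=
  F t - ∑ m ∈ Finset.Icc (-(M : ℤ)) M, coef F m * e (m * t)

theorem coef_eq (F : ℝ → ℂ) (m : ℤ) : fourierCoeffOn zero_lt_one F m = coef F m := by
  rw [fourierCoeffOn_eq_integral, sub_zero, div_one, one_smul, coef]
  refine intervalIntegral.integral_congr fun t _ => ?_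
  rw [fourier_coe_apply, e, smul_eq_mul, mul_comm (F t)]
  congr 2
  push_cast
  ring

theorem hasSum_coef {F : ℝ → ℂ} (hF : Measurable F) (h1 : ∀ t, ‖F t‖ = 1) :
    HasSum (fun m => ‖coef F m‖ ^ 2) 1 := by
  have hL : MemLp F 2 (volume.restrict (Set.Ioc (0 : ℝ) 1)) :=
    MemLp.of_bound hF.aestronglyMeasurable 1 (Eventually.of_forall fun t => (h1 t).le)
  simpa [coef_eq, h1] using hasSum_sq_fourierCoeffOn zero_lt_one hL

theorem integral_rest {F : ℝ → ℂ} (hF : Measurable F) (h1 : ∀ t, ‖F t‖ = 1) (s : Finset ℤ) :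
    ∫ t in (0 : ℝ)..1, ‖F t - ∑ m ∈ s, coef F m * e (m * t)‖ ^ 2 =
      1 - ∑ m ∈ s, ‖coef F m‖ ^ 2 := by
  have hP := parseval s id (Set.injOn_id _) (coef F)
  simp only [id_eq] at hP
  set T : ℝ → ℂ := fun t => ∑ m ∈ s, coef F m * e (m * t) with hT
  have hTc : Continuous T := continuous_finsetSum _ fun m _ =>
    continuous_const.mul (continuous_e.comp (by fun_prop))
  have hpt : ∀ t, ‖F t - T t‖ ^ 2 = 1 + ‖T t‖ ^ 2 - 2 * (F t * conj (T t)).re := by
    intro t
    rw [← Complex.normSq_eq_norm_sq, Complex.normSq_sub, Complex.normSq_eq_norm_sq,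
      Complex.normSq_eq_norm_sq, h1, one_pow]
  have hcross : ∫ t in (0 : ℝ)..1, F t * conj (T t) =
      ((∑ m ∈ s, ‖coef F m‖ ^ 2 : ℝ) : ℂ) := by
    have : ∀ t, F t * conj (T t) = ∑ m ∈ s, conj (coef F m) * (F t * e (-(m * t))) := fun t => by
      simp only [hT, map_sum, map_mul, Finset.mul_sum, ← e_neg]
      exact Finset.sum_congr rfl fun m _ => by ring
    simp only [this]
    rw [intervalIntegral.integral_finsetSum fun m _ => ?_]
    · push_cast
      refine Finset.sum_congr rfl fun m _ => ?_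
      rw [intervalIntegral.integral_const_mul, ← coef, Complex.conj_mul']
    · exact (bdd_integrable (hF.mul (measurable_e.comp (by fun_prop))) (C := 1)
        (fun t => by simp [h1, norm_e]) _ _).const_mul _
  have hFT : IntervalIntegrable (fun t => F t * conj (T t)) volume 0 1 :=
    (bdd_integrable hF (C := 1) (fun t => (h1 t).le) _ _).mul_continuousOn
      (Complex.continuous_conj.comp hTc).continuousOn
  have hre : IntervalIntegrable (fun t => (F t * conj (T t)).re) volume 0 1 :=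
    ⟨hFT.1.re, hFT.2.re⟩
  have hre' : ∫ t in (0 : ℝ)..1, (F t * conj (T t)).re = ∑ m ∈ s, ‖coef F m‖ ^ 2 := by
    have := Complex.reCLM.intervalIntegral_comp_comm hFT
    simp only [Complex.reCLM_apply] at this
    rw [this, hcross, Complex.ofReal_re]
  have hT2 : IntervalIntegrable (fun t => ‖T t‖ ^ 2) volume 0 1 :=
    (hTc.norm.pow 2).intervalIntegrable _ _
  simp only [hpt, show ∀ t, ∑ m ∈ s, coef F m * e (m * t) = T t from fun t => rfl] at hP ⊢
  rw [intervalIntegral.integral_sub (intervalIntegrable_const.add hT2) (hre.const_mul 2),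
    intervalIntegral.integral_add intervalIntegrable_const hT2, intervalIntegral.integral_const_mul,
    hre', hP]
  simp
  ring

theorem exists_rest_small {F : ℝ → ℂ} (hF : Measurable F) (h1 : ∀ t, ‖F t‖ = 1) {ε : ℝ}
    (hε : 0 < ε) : ∃ M₀ : ℕ, ∀ M ≥ M₀, ∫ t in (0 : ℝ)..1, ‖rest F M t‖ ^ 2 ≤ ε := by
  have hs := hasSum_coef hF h1
  obtain ⟨s, hs'⟩ := (Filter.eventually_atTop.1
    (hs.eventually_const_le (show 1 - ε < 1 by linarith)))
  refine ⟨s.sup Int.natAbs, fun M hM => ?_⟩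
  have hsub : s ⊆ Finset.Icc (-(M : ℤ)) M := fun m hm => by
    have := Finset.le_sup (f := Int.natAbs) hm
    rw [Finset.mem_Icc]
    omega
  simp only [rest]
  rw [integral_rest hF h1]
  have := hs' _ hsub
  linarith

theorem sum_coef_le {F : ℝ → ℂ} (hF : Measurable F) (h1 : ∀ t, ‖F t‖ = 1) (s : Finset ℤ) :
    ∑ m ∈ s, ‖coef F m‖ ^ 2 ≤ 1 :=
  sum_le_hasSum s (fun m _ => sq_nonneg _) (hasSum_coef hF h1)

/-- The mean of the step function is small off `δ`. -/
theorem norm_coef_zero_le {S : ℕ} (hS : 0 < S) {δ x : ℝ} (hδ : 0 < δ)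
    (hx : x ∈ Set.Icc δ (1 - δ)) : ‖coef (stepFn S x) 0‖ ≤ 1 / (2 * δ * S) := by
  have hS' : (0 : ℝ) < S := by exact_mod_cast hS
  have hG : coef (stepFn S x) 0 = ((S : ℂ))⁻¹ * ∑ k ∈ Finset.range S, e (-(k * x)) := by
    have hint : ∀ k < S, IntervalIntegrable (stepFn S x) volume ((k : ℝ) / S) ((k + 1 : ℕ) / S) :=
      fun k _ => bdd_integrable (measurable_stepFn S x) (C := 1) (fun t => (norm_stepFn S x t).le) _ _
    have h0 : coef (stepFn S x) 0 = ∫ t in (0 : ℝ)..1, stepFn S x t := by simp [coef, e]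
    rw [h0, show (∫ t in (0 : ℝ)..1, stepFn S x t) =
        ∫ t in ((0 : ℕ) : ℝ) / S..((S : ℕ) : ℝ) / S, stepFn S x t by simp [hS'.ne'],
      ← intervalIntegral.sum_integral_adjacent_intervals (a := fun k : ℕ => (k : ℝ) / S) hint,
      Finset.mul_sum]
    refine Finset.sum_congr rfl fun k hk => ?_
    have hkS : (k : ℝ) + 1 ≤ S := by exact_mod_cast Finset.mem_range.1 hk
    rw [intervalIntegral.integral_congr_Ioo_of_le (g := fun _ => e (-(k * x))) (by gcongr; simp)
      fun t ht => ?_]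
    · rw [intervalIntegral.integral_const, Complex.real_smul]
      push_cast
      rw [← sub_div, add_sub_cancel_left, one_div]
    · have h1 : (k : ℝ) < t * S := (div_lt_iff₀ hS').1 ht.1
      have h2 : t * S < (k : ℝ) + 1 := by
        have := (lt_div_iff₀ hS').1 ht.2
        push_cast at this
        exact this
      have ht0 : 0 ≤ t := by nlinarith [Nat.cast_nonneg (α := ℝ) k]
      have ht1 : t < 1 := by nlinarith
      simp only [stepFn, Int.fract_eq_self.2 ⟨ht0, ht1⟩]
      rw [show ⌊(S : ℝ) * t⌋₊ = k from (Nat.floor_eq_iff (by positivity)).2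
        ⟨by linarith, by linarith⟩]
  set z : ℂ := e (-x) with hz
  have hpow : ∀ k : ℕ, e (-(k * x)) = z ^ k := fun k => by
    induction k with
    | zero => simp [e]
    | succ k ih => rw [pow_succ, ← ih, hz, ← e_add]; congr 1; push_cast; ring
  have hsin : 2 * δ ≤ |Real.sin (Real.pi * (-x))| := by
    rw [mul_neg, Real.sin_neg, abs_neg]
    have h0 : ∀ y : ℝ, 0 ≤ y → y ≤ 1 / 2 → 2 * y ≤ Real.sin (Real.pi * y) := fun y hy hy' => by
      have := Real.mul_le_sin (x := Real.pi * y) (by positivity) (by nlinarith [Real.pi_pos])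
      field_simp at this
      exact this
    rcases le_total x (1 / 2) with h | h
    · exact le_trans (by linarith [hx.1]) ((h0 x (by linarith [hx.1]) h).trans (le_abs_self _))
    · have := h0 (1 - x) (by linarith [hx.2]) (by linarith)
      rw [mul_sub Real.pi, mul_one Real.pi, Real.sin_pi_sub] at this
      exact le_trans (by linarith [hx.2]) (this.trans (le_abs_self _))
  have hz1 : 4 * δ ≤ ‖z - 1‖ := by
    have h : ‖z - 1‖ = 2 * |Real.sin (Real.pi * (-x))| := by
      rw [hz, e, mul_comm ((2 * Real.pi * (-x) : ℝ) : ℂ), Complex.norm_exp_I_mul_ofReal_sub_one,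
        Real.norm_eq_abs, abs_mul, abs_of_pos (two_pos : (0 : ℝ) < 2)]
      congr 2
      ring_nf
    linarith
  have hne : z ≠ 1 := fun h => by rw [h, sub_self, norm_zero] at hz1; linarith
  have hsum : ‖∑ k ∈ Finset.range S, z ^ k‖ ≤ 1 / (2 * δ) := by
    rw [geom_sum_eq hne, norm_div]
    have hnum : ‖z ^ S - 1‖ ≤ 2 :=
      (norm_sub_le _ _).trans (by rw [norm_pow, hz, norm_e, one_pow, norm_one]; norm_num)
    exact (div_le_div₀ zero_le_two hnum (by linarith) hz1).trans (le_of_eq (by field_simp; ring))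
  rw [hG]
  simp only [hpow]
  rw [norm_mul, norm_inv, Complex.norm_natCast]
  calc (S : ℝ)⁻¹ * ‖∑ k ∈ Finset.range S, z ^ k‖ ≤ (S : ℝ)⁻¹ * (1 / (2 * δ)) :=
        mul_le_mul_of_nonneg_left hsum (by positivity)
    _ = 1 / (2 * δ * S) := by field_simp

/-- The conjugate stage polynomial. -/
noncomputable def poly (S p : ℕ) (ψ : ℕ → ℝ) (φ x u : ℝ) : ℂ :=
  ∑ j ∈ Finset.range p, stepFn S x (ψ j + φ) * e (-(j * u))

theorem norm_poly (S p : ℕ) (ψ : ℕ → ℝ) (φ x u : ℝ) :
    ‖∑ j ∈ Finset.range p, e ((⌊(S : ℝ) * Int.fract (ψ j + φ)⌋₊ : ℕ) * x + j * u)‖ =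
      ‖poly S p ψ φ x u‖ := by
  rw [← Complex.norm_conj (poly S p ψ φ x u), poly, map_sum]
  congr 1
  refine Finset.sum_congr rfl fun j _ => ?_
  rw [map_mul, stepFn, ← e_neg, ← e_neg, neg_neg, neg_neg, e_add]

theorem parseval_neg (p : ℕ) (r : ℕ → ℂ) :
    ∫ u in (0 : ℝ)..1, ‖∑ j ∈ Finset.range p, r j * e (-(j * u))‖ ^ 2 =
      ∑ j ∈ Finset.range p, ‖r j‖ ^ 2 := by
  have := parseval (Finset.range p) (fun j : ℕ => -(j : ℤ))
    (fun a _ b _ h => by simpa using h) r
  simpa using this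

theorem continuous_series {ι : Type*} (s : Finset ι) (r : ι → ℂ) (f : ι → ℝ) :
    Continuous fun u : ℝ => ∑ i ∈ s, r i * e (-(f i * u)) :=
  continuous_finsetSum _ fun _ _ => continuous_const.mul (continuous_e.comp (by fun_prop))

theorem measurable_rest {F : ℝ → ℂ} (hF : Measurable F) (M : ℕ) : Measurable (rest F M) :=
  hF.sub (Finset.measurable_sum _ fun _ _ => measurable_const.mul
    (measurable_e.comp (measurable_const.mul measurable_id)))

theorem norm_rest_le {F : ℝ → ℂ} (hF : Measurable F) (h1 : ∀ t, ‖F t‖ = 1) (M : ℕ) (t : ℝ) :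
    ‖rest F M t‖ ≤ 1 + (2 * M + 1) := by
  refine (norm_sub_le _ _).trans (add_le_add (h1 t).le ((norm_sum_le _ _).trans ?_))
  refine (Finset.sum_le_card_nsmul _ _ 1 fun m _ => ?_).trans (le_of_eq ?_)
  · rw [norm_mul, norm_e, mul_one, ← sq_le_one_iff₀ (norm_nonneg _)]
    simpa using sum_coef_le hF h1 {m}
  · rw [Int.card_Icc, nsmul_eq_mul, mul_one,
      show ((M : ℤ) + 1 - -(M : ℤ)).toNat = 2 * M + 1 by omega]
    push_cast
    ring

theorem periodic_rest_sq (S : ℕ) (x : ℝ) (M : ℕ) :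
    Function.Periodic (fun t => ‖rest (stepFn S x) M t‖ ^ 2) 1 := fun t => by
  simp only [rest, stepFn, Int.fract_add_one, mul_add, mul_one, e_add, e_int]

/-- The quantity which is small on average over the shift. -/
noncomputable def loss (S p M : ℕ) (ψ : ℕ → ℝ) (σ : ℝ → ℝ) (x φ : ℝ) : ℝ :=
  (∑ j ∈ Finset.range p, ‖rest (stepFn S x) M (ψ j + φ)‖ ^ 2) / p +
    ∫ u in (0 : ℝ)..1, ‖rest (stepFn S x) M (σ u + φ)‖ ^ 2

theorem loss_avg {S p M : ℕ} (hp : 0 < p) (ψ : ℕ → ℝ) {σ : ℝ → ℝ} (hσ : Measurable σ) (x : ℝ) :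
    IntervalIntegrable (loss S p M ψ σ x) volume 0 1 ∧
      ∫ φ in (0 : ℝ)..1, loss S p M ψ σ x φ =
        2 * ∫ t in (0 : ℝ)..1, ‖rest (stepFn S x) M t‖ ^ 2 := by
  set g : ℝ → ℝ := fun t => ‖rest (stepFn S x) M t‖ ^ 2 with hg
  have hgm : Measurable g := (measurable_rest (measurable_stepFn S x) M).norm.pow_const 2
  have hgb : ∀ t, ‖g t‖ ≤ (1 + (2 * (M : ℝ) + 1)) ^ 2 := fun t => by
    rw [hg, norm_pow, norm_norm]
    exact pow_le_pow_left₀ (norm_nonneg _)
      (norm_rest_le (measurable_stepFn S x) (norm_stepFn S x) M t) 2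
  have htr : ∀ a, ∫ φ in (0 : ℝ)..1, g (a + φ) = ∫ t in (0 : ℝ)..1, g t := fun a => by
    rw [intervalIntegral.integral_comp_add_left g a, add_zero]
    have := (periodic_rest_sq S x M).intervalIntegral_add_eq a 0
    rwa [zero_add] at this
  have hprod : Integrable (Function.uncurry fun φ u => g (σ u + φ))
      ((volume.restrict (Set.Ioc (0 : ℝ) 1)).prod (volume.restrict (Set.Ioc (0 : ℝ) 1))) := by
    refine Integrable.of_bound (Measurable.aestronglyMeasurable ?_) _ (Eventually.of_forall fun q => hgb _)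
    exact hgm.comp ((hσ.comp measurable_snd).add measurable_fst)
  have hi2 : IntervalIntegrable (fun φ => ∫ u in (0 : ℝ)..1, g (σ u + φ)) volume 0 1 := by
    rw [intervalIntegrable_iff_integrableOn_Ioc_of_le zero_le_one]
    simp only [intervalIntegral.integral_of_le zero_le_one]
    exact hprod.integral_prod_left
  have hi1 : ∀ j, IntervalIntegrable (fun φ => g (ψ j + φ)) volume 0 1 := fun j =>
    bdd_integrable (hgm.comp (measurable_const.add measurable_id)) (fun _ => hgb _) _ _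
  have hi1' : IntervalIntegrable (fun φ => (∑ j ∈ Finset.range p, g (ψ j + φ)) / (p : ℝ))
      volume 0 1 := by
    have := (IntervalIntegrable.sum (Finset.range p) fun j _ => hi1 j).div_const (p : ℝ)
    simpa only [Finset.sum_apply] using this
  refine ⟨hi1'.add hi2, ?_⟩
  simp only [loss]
  rw [intervalIntegral.integral_add hi1' hi2, intervalIntegral.integral_div,
    intervalIntegral.integral_finsetSum fun j _ => hi1 j, two_mul]
  refine congrArg₂ (· + ·) ?_ ?_
  · simp only [htr, Finset.sum_const, Finset.card_range, nsmul_eq_mul]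
    exact mul_div_cancel_left₀ _ (Nat.cast_ne_zero.2 hp.ne')
  · simp only [intervalIntegral.integral_of_le zero_le_one]
    rw [integral_integral_swap hprod]
    have htr' : ∀ a, ∫ φ in Set.Ioc (0 : ℝ) 1, g (a + φ) = ∫ t in Set.Ioc (0 : ℝ) 1, g t :=
      fun a => by simpa only [intervalIntegral.integral_of_le zero_le_one] using htr a
    simp [htr']

/-- Flatness at one frequency. -/
theorem flat_at {S p M : ℕ} (hp : 0 < p) {η : ℝ} {ψ : ℕ → ℝ} {A : ℝ → ℂ} {σ : ℝ → ℝ}
    (hA : Measurable A) (hσ : Measurable σ) (hA1 : ∀ u, ‖A u‖ = 1)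
    (hW : ∀ m : ℤ, m ≠ 0 → |m| ≤ M →
      ∫ u in (0 : ℝ)..1, ‖(∑ t ∈ Finset.range p, e (m * ψ t - t * u)) -
        (Real.sqrt p : ℂ) * A u * e (m * σ u)‖ ^ 2 ≤ η * p) (hη : 0 ≤ η) (x φ : ℝ) :
    ∫ u in (0 : ℝ)..1, (‖poly S p ψ φ x u‖ / Real.sqrt p - 1) ^ 2 ≤
      5 * (2 * ‖coef (stepFn S x) 0‖ ^ 2 + (2 * (M : ℝ) + 1) * η + loss S p M ψ σ x φ) := by
  set F := stepFn S x with hF
  have hFm := measurable_stepFn S x
  have hF1 := norm_stepFn S x
  set c := coef F with hc
  set q : ℝ := Real.sqrt p with hq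
  have hq0 : 0 < q := Real.sqrt_pos.2 (by exact_mod_cast hp)
  have hq2 : q ^ 2 = p := Real.sq_sqrt (Nat.cast_nonneg _)
  set s := (Finset.Icc (-(M : ℤ)) M).erase 0 with hs
  set W : ℤ → ℝ → ℂ := fun m u => (∑ t ∈ Finset.range p, e (m * ψ t - t * u)) -
    (q : ℂ) * A u * e (m * σ u) with hWdef
  set W0 : ℝ → ℂ := fun u => ∑ j ∈ Finset.range p, 1 * e (-(j * u)) with hW0
  set R1 : ℝ → ℂ := fun u => ∑ j ∈ Finset.range p, rest F M (ψ j + φ) * e (-(j * u)) with hR1
  set R2 : ℝ → ℂ := fun u => (q : ℂ) * A u * rest F M (σ u + φ) with hR2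
  have hsplit : ∀ t, F t = c 0 + (∑ m ∈ s, c m * e (m * t)) + rest F M t := fun t => by
    have h0 : (0 : ℤ) ∈ Finset.Icc (-(M : ℤ)) M := by simp
    rw [rest, ← Finset.add_sum_erase _ _ h0, ← hs]
    simp only [hc, Int.cast_zero, zero_mul, e, mul_zero, Complex.ofReal_zero, Complex.exp_zero,
      mul_one]
    ring
  have hD : ∀ u, poly S p ψ φ x u - (q : ℂ) * A u * F (σ u + φ) =
      (c 0 * W0 u + (∑ m ∈ s, c m * e (m * φ) * W m u) + R1 u) + (-(c 0 * ((q : ℂ) * A u)) - R2 u) := by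
    intro u
    have e1 : ∀ (m : ℤ) (j : ℕ), e (m * ψ j - j * u) = e (m * ψ j) * e (-(j * u)) := fun m j => by
      rw [sub_eq_add_neg, e_add]
    have hpoly : poly S p ψ φ x u = c 0 * W0 u +
        (∑ m ∈ s, c m * e (m * φ) * ∑ j ∈ Finset.range p, e (m * ψ j - j * u)) + R1 u := by
      simp only [poly, ← hF, hsplit, add_mul, Finset.sum_add_distrib, hW0, hR1, Finset.mul_sum,
        Finset.sum_mul, one_mul, e1]
      congr 2
      rw [Finset.sum_comm]
      refine Finset.sum_congr rfl fun m _ => Finset.sum_congr rfl fun j _ => ?_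
      rw [mul_add, e_add]
      ring
    have hmid : (∑ m ∈ s, c m * e (m * φ) * W m u) =
        (∑ m ∈ s, c m * e (m * φ) * ∑ j ∈ Finset.range p, e (m * ψ j - j * u)) -
          (q : ℂ) * A u * ∑ m ∈ s, c m * e (m * (σ u + φ)) := by
      simp only [hWdef, mul_sub, Finset.sum_sub_distrib, Finset.mul_sum]
      congr 1
      refine Finset.sum_congr rfl fun m _ => ?_
      rw [mul_add, e_add]
      ring
    rw [hpoly, hsplit (σ u + φ), hmid, hR2]
    ring
  set T : ℝ → ℝ := fun u => ‖c 0‖ ^ 2 * ‖W0 u‖ ^ 2 + (∑ m ∈ s, ‖W m u‖ ^ 2) + ‖R1 u‖ ^ 2 +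
    ‖c 0‖ ^ 2 * (p : ℝ) + (p : ℝ) * ‖rest F M (σ u + φ)‖ ^ 2 with hT
  have hpt : ∀ u, (‖poly S p ψ φ x u‖ / q - 1) ^ 2 ≤ 5 / (p : ℝ) * T u := by
    intro u
    have hQ : ‖(q : ℂ) * A u * F (σ u + φ)‖ = q := by
      rw [norm_mul, norm_mul, hA1, hF1, Complex.norm_real, Real.norm_eq_abs, abs_of_pos hq0,
        mul_one, mul_one]
    have h0 : |‖poly S p ψ φ x u‖ - q| ≤ ‖poly S p ψ φ x u - (q : ℂ) * A u * F (σ u + φ)‖ := by
      conv_lhs => rw [← hQ]
      exact abs_norm_sub_norm_le _ _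
    rw [hD] at h0
    have hCS : ‖∑ m ∈ s, c m * e (m * φ) * W m u‖ ^ 2 ≤ ∑ m ∈ s, ‖W m u‖ ^ 2 := by
      refine (pow_le_pow_left₀ (norm_nonneg _) (norm_sum_le _ _) 2).trans ?_
      simp only [norm_mul, norm_e, mul_one]
      refine (Finset.sum_mul_sq_le_sq_mul_sq s _ _).trans ?_
      exact mul_le_of_le_one_left (Finset.sum_nonneg fun _ _ => sq_nonneg _) (sum_coef_le hFm hF1 s)
    have htri : |‖poly S p ψ φ x u‖ - q| ≤ ‖c 0‖ * ‖W0 u‖ + ‖∑ m ∈ s, c m * e (m * φ) * W m u‖ +
        ‖R1 u‖ + ‖c 0‖ * q + q * ‖rest F M (σ u + φ)‖ := by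
      refine h0.trans ((norm_add_le _ _).trans ((add_le_add (norm_add₃_le) (norm_sub_le _ _)).trans
        (le_of_eq ?_)))
      simp only [hR2, norm_neg, norm_mul, hA1, mul_one, Complex.norm_real, Real.norm_eq_abs,
        abs_of_pos hq0]
      ring
    have h5 := (pow_le_pow_left₀ (abs_nonneg _) htri 2)
    rw [sq_abs] at h5
    have hfive : ∀ a b c d f : ℝ, (a + b + c + d + f) ^ 2 ≤
        5 * (a ^ 2 + b ^ 2 + c ^ 2 + d ^ 2 + f ^ 2) := fun a b c d f => by
      nlinarith [sq_nonneg (a - b), sq_nonneg (a - c), sq_nonneg (a - d), sq_nonneg (a - f),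
        sq_nonneg (b - c), sq_nonneg (b - d), sq_nonneg (b - f), sq_nonneg (c - d),
        sq_nonneg (c - f), sq_nonneg (d - f)]
    have h6 := h5.trans (hfive _ _ _ _ _)
    simp only [mul_pow, hq2] at h6
    rw [div_sub_one hq0.ne', div_pow, hq2, div_mul_eq_mul_div]
    refine div_le_div_of_nonneg_right (h6.trans ?_) (Nat.cast_nonneg _)
    simp only [hT]
    linarith
  have hsm : Measurable fun u => rest F M (σ u + φ) :=
    (measurable_rest hFm M).comp (hσ.add measurable_const)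
  have iW0 : IntervalIntegrable (fun u => ‖W0 u‖ ^ 2) volume 0 1 :=
    ((continuous_series _ (fun _ => (1 : ℂ)) _).norm.pow 2).intervalIntegrable _ _
  have iR1 : IntervalIntegrable (fun u => ‖R1 u‖ ^ 2) volume 0 1 :=
    ((continuous_series _ _ _).norm.pow 2).intervalIntegrable _ _
  have iR2 : IntervalIntegrable (fun u => ‖rest F M (σ u + φ)‖ ^ 2) volume 0 1 :=
    bdd_integrable (hsm.norm.pow_const 2) (fun u => by
      rw [norm_pow, norm_norm]
      exact pow_le_pow_left₀ (norm_nonneg _) (norm_rest_le hFm hF1 M _) 2) _ _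
  have iW : ∀ m, IntervalIntegrable (fun u => ‖W m u‖ ^ 2) volume 0 1 := fun m => by
    refine bdd_integrable (C := ((p : ℝ) + q) ^ 2) (Measurable.pow_const (Measurable.norm ?_) 2)
      (fun u => ?_) _ _
    · exact (Finset.measurable_sum _ fun t _ => measurable_e.comp (by fun_prop)).sub
        ((measurable_const.mul hA).mul (measurable_e.comp (measurable_const.mul hσ)))
    · rw [norm_pow, norm_norm]
      refine pow_le_pow_left₀ (norm_nonneg _) ((norm_sub_le _ _).trans (add_le_add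
        ((norm_sum_le _ _).trans (le_of_eq ?_)) (le_of_eq ?_))) 2
      · simp [norm_e]
      · simp [norm_e, hA1, abs_of_pos hq0]
  have iWs : IntervalIntegrable (fun u => ∑ m ∈ s, ‖W m u‖ ^ 2) volume 0 1 := by
    have := IntervalIntegrable.sum s fun m _ => iW m
    rw [Finset.sum_fn] at this
    exact this
  have iP : IntervalIntegrable (fun u => (‖poly S p ψ φ x u‖ / q - 1) ^ 2) volume 0 1 :=
    ((((continuous_series _ _ _).norm.div_const _).sub continuous_const).pow 2).intervalIntegrable _ _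
  have i0 := iW0.const_mul (‖c 0‖ ^ 2)
  have i2 := iR2.const_mul (p : ℝ)
  have iT : IntervalIntegrable T volume 0 1 :=
    (((i0.add iWs).add iR1).add intervalIntegrable_const).add i2
  refine (intervalIntegral.integral_mono_on zero_le_one iP (iT.const_mul _) fun u _ => hpt u).trans ?_
  rw [intervalIntegral.integral_const_mul]
  have hE : ∫ u in (0 : ℝ)..1, T u = ‖c 0‖ ^ 2 * (p : ℝ) +
      (∑ m ∈ s, ∫ u in (0 : ℝ)..1, ‖W m u‖ ^ 2) +
      (∑ j ∈ Finset.range p, ‖rest F M (ψ j + φ)‖ ^ 2) + ‖c 0‖ ^ 2 * (p : ℝ) +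
      (p : ℝ) * ∫ u in (0 : ℝ)..1, ‖rest F M (σ u + φ)‖ ^ 2 := by
    simp only [hT]
    rw [intervalIntegral.integral_add (((i0.add iWs).add iR1).add intervalIntegrable_const) i2,
      intervalIntegral.integral_add ((i0.add iWs).add iR1) intervalIntegrable_const,
      intervalIntegral.integral_add (i0.add iWs) iR1, intervalIntegral.integral_add i0 iWs,
      intervalIntegral.integral_finsetSum fun m _ => iW m]
    simp only [intervalIntegral.integral_const_mul, hW0, hR1, parseval_neg]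
    simp
  have hWsum : (∑ m ∈ s, ∫ u in (0 : ℝ)..1, ‖W m u‖ ^ 2) ≤ (2 * (M : ℝ) + 1) * (η * p) := by
    refine (Finset.sum_le_card_nsmul _ _ (η * p) fun m hm => ?_).trans ?_
    · simp only [hs, Finset.mem_erase, Finset.mem_Icc] at hm
      exact hW m hm.1 (abs_le.2 hm.2)
    · rw [nsmul_eq_mul]
      refine mul_le_mul_of_nonneg_right ?_ (mul_nonneg hη (Nat.cast_nonneg _))
      have : s.card ≤ 2 * M + 1 := by
        refine (Finset.card_le_card (Finset.erase_subset _ _)).trans (le_of_eq ?_)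
        rw [Int.card_Icc]; omega
      exact_mod_cast this
  have hp' : (0 : ℝ) < p := by exact_mod_cast hp
  rw [hE, div_mul_eq_mul_div, div_le_iff₀ hp']
  have hl : loss S p M ψ σ x φ * (p : ℝ) = (∑ j ∈ Finset.range p, ‖rest F M (ψ j + φ)‖ ^ 2) +
      (p : ℝ) * ∫ u in (0 : ℝ)..1, ‖rest F M (σ u + φ)‖ ^ 2 := by
    rw [loss, ← hF, add_mul, div_mul_cancel₀ _ hp'.ne', mul_comm (p : ℝ)]
  nlinarith

/-- Moving the frequency. -/
theorem flat_move {S p : ℕ} (hp : 0 < p) (ψ : ℕ → ℝ) (φ x y : ℝ) :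
    ∫ u in (0 : ℝ)..1, (‖poly S p ψ φ y u‖ / Real.sqrt p - 1) ^ 2 ≤
      2 * (2 * Real.pi * S * (y - x)) ^ 2 +
        2 * ∫ u in (0 : ℝ)..1, (‖poly S p ψ φ x u‖ / Real.sqrt p - 1) ^ 2 := by
  set q : ℝ := Real.sqrt p with hq
  have hp' : (0 : ℝ) < p := by exact_mod_cast hp
  have hq0 : 0 < q := Real.sqrt_pos.2 hp'
  have hq2 : q ^ 2 = p := Real.sq_sqrt hp'.le
  set r : ℕ → ℂ := fun j => stepFn S y (ψ j + φ) - stepFn S x (ψ j + φ) with hr
  have hd : ∀ u, poly S p ψ φ y u - poly S p ψ φ x u =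
      ∑ j ∈ Finset.range p, r j * e (-(j * u)) := fun u => by
    simp [poly, hr, sub_mul]
  have hpt : ∀ u, (‖poly S p ψ φ y u‖ / q - 1) ^ 2 ≤
      2 / (p : ℝ) * ‖∑ j ∈ Finset.range p, r j * e (-(j * u))‖ ^ 2 +
        2 * (‖poly S p ψ φ x u‖ / q - 1) ^ 2 := fun u => by
    rw [← hd]
    have h1 : (‖poly S p ψ φ y u‖ / q - ‖poly S p ψ φ x u‖ / q) ^ 2 ≤
        ‖poly S p ψ φ y u - poly S p ψ φ x u‖ ^ 2 / p := by
      rw [← sub_div, div_pow, hq2, ← sq_abs]
      gcongr
      exact abs_norm_sub_norm_le _ _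
    rw [div_mul_eq_mul_div, mul_div_assoc]
    nlinarith [sq_nonneg (‖poly S p ψ φ y u‖ / q - ‖poly S p ψ φ x u‖ / q -
      (‖poly S p ψ φ x u‖ / q - 1))]
  have iP : ∀ z, IntervalIntegrable (fun u => (‖poly S p ψ φ z u‖ / q - 1) ^ 2) volume 0 1 :=
    fun z => ((((continuous_series _ _ _).norm.div_const _).sub continuous_const).pow 2).intervalIntegrable _ _
  have iR : IntervalIntegrable (fun u => ‖∑ j ∈ Finset.range p, r j * e (-(j * u))‖ ^ 2) volume 0 1 :=
    ((continuous_series _ _ _).norm.pow 2).intervalIntegrable _ _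
  refine (intervalIntegral.integral_mono_on zero_le_one (iP y)
    ((iR.const_mul _).add ((iP x).const_mul 2)) fun u _ => hpt u).trans ?_
  rw [intervalIntegral.integral_add (iR.const_mul _) ((iP x).const_mul 2),
    intervalIntegral.integral_const_mul, intervalIntegral.integral_const_mul, parseval_neg]
  refine add_le_add ?_ le_rfl
  rw [div_mul_eq_mul_div, div_le_iff₀ hp', mul_assoc]
  refine mul_le_mul_of_nonneg_left ((Finset.sum_le_card_nsmul _ _ _ fun j _ => ?_).trans
    (le_of_eq (by rw [Finset.card_range, nsmul_eq_mul, mul_comm]))) zero_le_two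
  set k : ℕ := ⌊(S : ℝ) * Int.fract (ψ j + φ)⌋₊ with hk
  have hkS : (k : ℝ) ≤ S :=
    (Nat.floor_le (by positivity)).trans
      (mul_le_of_le_one_right (Nat.cast_nonneg _) (Int.fract_lt_one _).le)
  rw [← sq_abs (2 * Real.pi * S * (y - x))]
  refine pow_le_pow_left₀ (norm_nonneg _) ((norm_e_sub_e_le _ _).trans ?_) 2
  rw [← hk, show -((k : ℝ) * y) - -((k : ℝ) * x) = -((k : ℝ) * (y - x)) by ring, abs_neg, abs_mul,
    abs_mul, abs_mul, abs_of_pos (by positivity : (0 : ℝ) < 2 * Real.pi),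
    Nat.abs_cast, Nat.abs_cast, mul_assoc (2 * Real.pi)]
  gcongr

end Vale.Agent.P130.Lebesgue.Flat

namespace Vale.Agent.P130.Lebesgue

open MeasureTheory

open Flat in
/-- Coherent harmonics give flat bounded spacers. -/
theorem flat_of_coherent (hC : CoherentGoal) : FlatSpacerGoal := by
  classical
  intro δ η hδ hη
  obtain ⟨S, hSb⟩ := exists_nat_gt (1 / (2 * δ) * (80 / η + 1))
  have hSp : (0 : ℝ) < S := lt_of_le_of_lt (by positivity) hSb
  have hS0 : 0 < S := by exact_mod_cast hSp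
  have hSc : (1 / (2 * δ * S)) ^ 2 ≤ η / 80 := by
    have h1 : 80 / η + 1 < 2 * δ * S := by
      have := mul_lt_mul_of_pos_left hSb (show (0 : ℝ) < 2 * δ by linarith)
      rwa [← mul_assoc, mul_one_div, div_self (by positivity : (2 * δ : ℝ) ≠ 0), one_mul] at this
    have h2 : 1 / (2 * δ * S) ≤ 1 / (80 / η + 1) := one_div_le_one_div_of_le (by positivity) h1.le
    have h3 : 1 / (80 / η + 1) ≤ η / 80 := by
      rw [div_le_iff₀ (by positivity)]; field_simp; linarith
    have h4 : 1 / (80 / η + 1) ≤ 1 := by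
      rw [div_le_one (by positivity)]; linarith [show (0 : ℝ) < 80 / η by positivity]
    calc (1 / (2 * δ * S)) ^ 2 ≤ (1 / (80 / η + 1)) ^ 2 := pow_le_pow_left₀ (by positivity) h2 2
      _ ≤ 1 / (80 / η + 1) * 1 := by rw [sq]; exact mul_le_mul_of_nonneg_left h4 (by positivity)
      _ ≤ η / 80 := by rw [mul_one]; exact h3
  refine ⟨S, ?_⟩
  obtain ⟨K, hK⟩ := exists_nat_gt (2 * Real.pi * S * (8 / η + 1))
  have hKp : (0 : ℝ) < K := lt_of_le_of_lt (by positivity) hK
  set X : Finset ℝ := ((Finset.range (K + 1)).image fun i : ℕ => δ + (i : ℝ) / K).filter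
    (fun x => x ≤ 1 - δ) with hX
  set ε : ℝ := η / (80 * ((X.card : ℝ) + 1)) with hε
  have hεp : 0 < ε := by positivity
  choose M₀ hM₀ using fun x : ℝ =>
    exists_rest_small (measurable_stepFn S x) (norm_stepFn S x) hεp
  set M := X.sup M₀ with hM
  set η' : ℝ := η / (80 * (2 * (M : ℝ) + 1)) with hη'
  have hη'p : 0 < η' := by positivity
  intro p₀
  obtain ⟨p, hp₀, ψ, A, σ, hA, hσ, hA1, hW⟩ := hC M η' hη'p (p₀ + 1)
  have hp : 0 < p := by omega
  obtain ⟨φ, hφ⟩ : ∃ φ, ∑ x ∈ X, loss S p M ψ σ x φ ≤ η / 40 := by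
    have hL : IntervalIntegrable (fun φ => ∑ x ∈ X, loss S p M ψ σ x φ) volume 0 1 := by
      have := IntervalIntegrable.sum X fun x _ => (loss_avg (S := S) (M := M) hp ψ hσ x).1
      rw [Finset.sum_fn] at this
      exact this
    have hle : ∫ φ in (0 : ℝ)..1, ∑ x ∈ X, loss S p M ψ σ x φ ≤ η / 40 := by
      rw [intervalIntegral.integral_finsetSum fun x _ => (loss_avg hp ψ hσ x).1]
      refine (Finset.sum_le_card_nsmul _ _ (2 * ε) fun x hx => ?_).trans ?_
      · rw [(loss_avg hp ψ hσ x).2]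
        exact mul_le_mul_of_nonneg_left (hM₀ x M (Finset.le_sup hx)) zero_le_two
      · rw [nsmul_eq_mul, hε, mul_div, mul_div, div_le_div_iff₀ (by positivity) (by norm_num)]
        nlinarith [Nat.cast_nonneg (α := ℝ) X.card]
    rw [intervalIntegral.integral_of_le zero_le_one] at hle
    have : IsProbabilityMeasure (volume.restrict (Set.Ioc (0 : ℝ) 1)) :=
      ⟨by simp⟩
    obtain ⟨φ, hφ⟩ := exists_le_integral
      ((intervalIntegrable_iff_integrableOn_Ioc_of_le zero_le_one).1 hL)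
    exact ⟨φ, hφ.trans hle⟩
  refine ⟨p, by omega, fun j => ⌊(S : ℝ) * Int.fract (ψ j + φ)⌋₊, fun j _ => ?_, fun y hy => ?_⟩
  · rw [Nat.floor_lt (by positivity)]
    exact mul_lt_of_lt_one_right hSp (Int.fract_lt_one _)
  simp only [norm_poly]
  set i : ℕ := ⌊(y - δ) * K⌋₊ with hi
  have hy0 : 0 ≤ (y - δ) * K := mul_nonneg (by linarith [hy.1]) hKp.le
  have hi1 : (i : ℝ) ≤ (y - δ) * K := Nat.floor_le hy0
  have hi2 : (y - δ) * K < (i : ℝ) + 1 := Nat.lt_floor_add_one _
  set x : ℝ := δ + (i : ℝ) / K with hx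
  have hxy : x ≤ y := by rw [hx, ← le_sub_iff_add_le', div_le_iff₀ hKp]; exact hi1
  have hyx : y - x ≤ 1 / K := by
    rw [hx, show y - (δ + (i : ℝ) / K) = ((y - δ) * K - i) / K by field_simp; ring]
    gcongr
    linarith
  have hxX : x ∈ X := by
    refine Finset.mem_filter.2 ⟨Finset.mem_image.2 ⟨i, Finset.mem_range.2 ?_, rfl⟩, ?_⟩
    · rw [Nat.lt_succ_iff]
      refine Nat.floor_le_of_le (mul_le_of_le_one_left hKp.le ?_)
      linarith [hy.2]
    · linarith [hy.2]
  have hxI : x ∈ Set.Icc δ (1 - δ) :=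
    ⟨le_add_of_nonneg_right (by positivity), hxy.trans hy.2⟩
  have hloss : loss S p M ψ σ x φ ≤ η / 40 :=
    le_trans (Finset.single_le_sum (f := fun x => loss S p M ψ σ x φ) (fun z _ => by
      refine add_nonneg (div_nonneg (Finset.sum_nonneg fun _ _ => sq_nonneg _) (Nat.cast_nonneg _))
        (intervalIntegral.integral_nonneg zero_le_one fun _ _ => sq_nonneg _)) hxX) hφ
  have hc : ‖coef (stepFn S x) 0‖ ^ 2 ≤ η / 80 :=
    (pow_le_pow_left₀ (norm_nonneg _) (norm_coef_zero_le hS0 hδ hxI) 2).trans hSc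
  have hη'b : (2 * (M : ℝ) + 1) * η' ≤ η / 80 := by
    rw [hη', mul_div, div_le_div_iff₀ (by positivity) (by norm_num)]
    linarith
  have hat := flat_at hp hA hσ hA1 hW hη'p.le (S := S) x φ
  have hmove : (2 * Real.pi * S * (y - x)) ^ 2 ≤ η / 8 := by
    have h1 : 2 * Real.pi * S * (y - x) ≤ 1 / (8 / η + 1) := by
      refine (mul_le_mul_of_nonneg_left hyx (by positivity)).trans ?_
      rw [mul_one_div, div_le_div_iff₀ hKp (by positivity)]
      linarith
    have h0 : 0 ≤ 2 * Real.pi * S * (y - x) := mul_nonneg (by positivity) (by linarith)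
    have h3 : 1 / (8 / η + 1) ≤ η / 8 := by
      rw [div_le_iff₀ (by positivity)]; field_simp; linarith
    have h4 : 1 / (8 / η + 1) ≤ 1 := by
      rw [div_le_one (by positivity)]; linarith [show (0 : ℝ) < 8 / η by positivity]
    nlinarith
  have := flat_move hp ψ φ x y (S := S)
  linarith

end Vale.Agent.P130.Lebesgue
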