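import Vale.Agent.P130.Lebesgue.Pack.Cell

/-!
# Tubes pack an interval: `PackGoal`

Each round puts one tube of a chosen shape in every free cell and refines the free cells.
-/

namespace Vale.Agent.P130.Lebesgue

namespace Pack

open Finset

variable {n : ℕ}

/-- A packing state: tubes of total weights `u`, and free cells of mass at least `φ` away from all
of them. -/
def State (P : ℕ) (G : Fin n → Finset ℤ) (u : Fin n → ℝ) (φ : ℝ) : Prop :=
  ∃ (S D : ℕ) (F : Finset (ℕ × ℕ)) (κ : Type) (_ : Fintype κ) (sh : κ → Fin n) (s : κ → ℕ)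
    (lam : κ → ℝ),
    0 < S ∧ 0 < D ∧ (∀ q ∈ F, q.1 < S ∧ q.2 < D) ∧ φ ≤ (F.card : ℝ) / ((S : ℝ) * D) ∧
    (∀ k, 0 < s k ∧ 0 < lam k) ∧
    (∀ i, ∑ k ∈ Finset.univ.filter (fun k => sh k = i), lam k = u i) ∧
    ∃ N₀ : ℕ, ∀ N, N₀ ≤ N → ∃ c : κ → ℤ,
      (∀ k, ∀ f ∈ G (sh k), ∀ l : ℕ, (l : ℝ) < lam k * N →
        (0 ≤ tubePos P (c k) (s k) f l ∧ tubePos P (c k) (s k) f l < N) ∧
        ∀ q ∈ F, ¬ InCell N S D q (tubePos P (c k) (s k) f l)) ∧
      ∀ k k', ∀ f ∈ G (sh k), ∀ f' ∈ G (sh k'), ∀ l l' : ℕ,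
        (l : ℝ) < lam k * N → (l' : ℝ) < lam k' * N →
        tubePos P (c k) (s k) f l = tubePos P (c k') (s k') f' l' → k = k' ∧ f = f' ∧ l = l'

lemma state_zero (P : ℕ) (G : Fin n → Finset ℤ) : State P G 0 1 := by
  refine ⟨1, 1, {(0, 0)}, Fin 0, inferInstance, Fin.elim0, Fin.elim0, Fin.elim0, one_pos, one_pos,
    ?_, by simp, fun k => k.elim0, fun i => by simp, 0, fun N _ => ⟨Fin.elim0, ?_, ?_⟩⟩
  · intro q hq
    simp only [mem_singleton] at hq
    simp [hq]
  · exact fun k => k.elim0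
  · exact fun k => k.elim0

/-- One round: a tube of shape `i` in every free cell. -/
lemma state_step {P : ℕ} (hP : 0 < P) {G : Fin n → Finset ℤ} {i : Fin n}
    (hne : ∀ f ∈ G i, f ≠ 0)
    (hinj : ∀ f ∈ G i, ∀ g ∈ G i, ∀ l k : ℕ,
      f * (1 + P * l) = g * (1 + P * k) → f = g ∧ l = k)
    {M : ℝ} (hM : 0 < M) (hfM : ∀ f ∈ G i, |(f : ℝ)| ≤ M)
    {u : Fin n → ℝ} {φ : ℝ} (h : State P G u φ) (hφ : 0 < φ) {v : ℝ} (hv : 0 < v)
    {E : ℕ} (hE : 7 ≤ E) :
    ∃ a, min (φ / (3 * P * M)) v ≤ a ∧ a ≤ v ∧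
      State P G (fun j => u j + if j = i then a else 0)
        (φ - (G i).card * a - 4 * (G i).card / (E : ℝ)) := by
  classical
  obtain ⟨S, D, F, κ, hκ, sh, s, lam, hS, hD, hF, hmass, hpos, hu, N₀, hc⟩ := h
  have hSD : (0 : ℝ) < (S : ℝ) * D := by positivity
  have hFpos : (0 : ℝ) < F.card := by
    have := lt_of_lt_of_le hφ hmass
    exact (div_pos_iff_of_pos_right hSD).1 this
  set μ : ℝ := min (1 / (3 * P * M * ((S : ℝ) * D))) (v / F.card) with hμ
  have hμpos : 0 < μ := lt_min (by positivity) (by positivity)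
  refine ⟨F.card * μ, ?_, ?_, ?_⟩
  · rw [hμ, mul_min_of_nonneg _ _ hFpos.le]
    refine min_le_min ?_ (by rw [mul_div_cancel₀ _ hFpos.ne'])
    calc φ / (3 * P * M) ≤ ((F.card : ℝ) / ((S : ℝ) * D)) / (3 * P * M) :=
          div_le_div_of_nonneg_right hmass (by positivity)
      _ = F.card * (1 / (3 * P * M * ((S : ℝ) * D))) := by ring
  · calc (F.card : ℝ) * μ ≤ F.card * (v / F.card) :=
          mul_le_mul_of_nonneg_left (min_le_right _ _) hFpos.le
      _ = v := mul_div_cancel₀ _ hFpos.ne'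
  have hsmall : ∀ f ∈ G i, (S : ℝ) * |(f : ℝ)| * P * μ * D ≤ 1 / 3 := by
    intro f hf
    calc (S : ℝ) * |(f : ℝ)| * P * μ * D
        ≤ (S : ℝ) * M * P * (1 / (3 * P * M * ((S : ℝ) * D))) * D := by
          gcongr
          · exact hfM f hf
          · exact min_le_left _ _
      _ = 1 / 3 := by
          have : (0 : ℝ) < S := by exact_mod_cast hS
          have : (0 : ℝ) < D := by exact_mod_cast hD
          have : (0 : ℝ) < P := by exact_mod_cast hP
          field_simp
  have key := fun q : {q // q ∈ F} =>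
    refine_cell hP (G i) hne hS hD hE hμpos.le hsmall (hF q q.2).1 (hF q q.2).2
  set L := P * ∏ f ∈ G i, f.natAbs
  choose F' hF'sub hF'card N₁ hN₁ using key
  have hL : 0 < L := Nat.mul_pos hP
    (Finset.prod_pos fun g hg => Int.natAbs_pos.2 (hne g hg))
  have hEpos : 0 < E := by omega
  refine ⟨S * L, D * E, Finset.univ.biUnion F', κ ⊕ {q // q ∈ F}, inferInstance,
    Sum.elim sh fun _ => i, Sum.elim s fun _ => S, Sum.elim lam fun _ => μ,
    Nat.mul_pos hS hL, Nat.mul_pos hD hEpos, ?_, ?_, ?_, ?_, max N₀ (Finset.univ.sup N₁), ?_⟩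
  · intro q' hq'
    obtain ⟨q, -, hq⟩ := mem_biUnion.1 hq'
    have := children_bound (hF q q.2).1 (hF q q.2).2 (hF'sub q hq)
    exact ⟨this.1, this.2.1⟩
  · have hdisj : ((Finset.univ : Finset {q // q ∈ F}) : Set {q // q ∈ F}).PairwiseDisjoint F' := by
      intro q _ q' _ hne'
      refine Finset.disjoint_left.2 fun z hz hz' => hne' (Subtype.ext ?_)
      obtain ⟨-, -, a1, a2⟩ := children_bound (hF q q.2).1 (hF q q.2).2 (hF'sub q hz)
      obtain ⟨-, -, b1, b2⟩ := children_bound (hF q' q'.2).1 (hF q' q'.2).2 (hF'sub q' hz')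
      exact Prod.ext (a1.symm.trans b1) (a2.symm.trans b2)
    rw [card_biUnion hdisj, Nat.cast_sum, sum_div]
    refine le_trans ?_ (sum_le_sum fun q _ => hF'card q)
    rw [sum_const, card_univ, Fintype.card_coe, nsmul_eq_mul]
    have hF1 : (F.card : ℝ) / ((S : ℝ) * D) ≤ 1 := by
      rw [div_le_one hSD]
      have : F ⊆ range S ×ˢ range D := fun q hq =>
        mem_product.2 ⟨mem_range.2 (hF q hq).1, mem_range.2 (hF q hq).2⟩
      have := card_le_card this
      rw [card_product, card_range, card_range] at this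
      exact_mod_cast this
    have hlow := mul_le_mul_of_nonneg_left hF1
      (show (0 : ℝ) ≤ (G i).card * 4 / E by positivity)
    have e : (F.card : ℝ) * (1 / ((S : ℝ) * D) - (G i).card * μ
          - (G i).card * (4 / ((S : ℝ) * D * E))) =
        (F.card : ℝ) / ((S : ℝ) * D) - (G i).card * (F.card * μ)
          - (G i).card * 4 / E * ((F.card : ℝ) / ((S : ℝ) * D)) := by ring
    have e' : 4 * ((G i).card : ℝ) / E = (G i).card * 4 / E * 1 := by ring
    rw [e, e']
    linarith
  · rintro (k | q)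
    · exact hpos k
    · exact ⟨hS, hμpos⟩
  · intro j
    change _ = u j + (if j = i then (F.card : ℝ) * μ else 0)
    rw [← hu j, sum_filter, sum_filter, Fintype.sum_sum_type]
    congr 1
    rcases eq_or_ne j i with hji | hji
    · simp [hji]
    · simp [hji, Ne.symm hji]
  · intro N hN
    obtain ⟨c, hc1, hc2⟩ := hc N (le_of_max_le_left hN)
    have hcq := fun q => hN₁ q N
      ((Finset.le_sup (mem_univ q)).trans (le_of_max_le_right hN))
    choose cn hcn using hcq
    refine ⟨Sum.elim c cn, ?_, ?_⟩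
    · rintro (k | q) f hf l hl
      · obtain ⟨h1, h2⟩ := hc1 k f hf l hl
        refine ⟨h1, fun q' hq' hin => ?_⟩
        obtain ⟨p, -, hp⟩ := mem_biUnion.1 hq'
        exact h2 p p.2
          (inCell_of_child (hF p p.2).1 (hF p p.2).2 hEpos (hF'sub p hp) hin)
      · obtain ⟨h1, h2⟩ := hcn q f hf l hl
        refine ⟨inCell_range (hF q q.2).2 h1, fun q' hq' hin => ?_⟩
        obtain ⟨p, -, hp⟩ := mem_biUnion.1 hq'
        have hpq := inCell_unique
          (inCell_of_child (hF p p.2).1 (hF p p.2).2 hEpos (hF'sub p hp) hin) h1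
        rw [Subtype.ext hpq] at hp
        exact h2 q' hp hin
    · rintro (k | q) (k' | q') f hf f' hf' l l' hl hl' heq
      · obtain ⟨rfl, h2⟩ := hc2 k k' f hf f' hf' l l' hl hl' heq
        exact ⟨rfl, h2⟩
      · exfalso
        have h1 := (hcn q' f' hf' l' hl').1
        simp only [Sum.elim_inl, Sum.elim_inr] at heq
        rw [← heq] at h1
        exact (hc1 k f hf l hl).2 q' q'.2 h1
      · exfalso
        have h1 := (hcn q f hf l hl).1
        simp only [Sum.elim_inl, Sum.elim_inr] at heq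
        rw [heq] at h1
        exact (hc1 k' f' hf' l' hl').2 q q.2 h1
      · have h1 := (hcn q f hf l hl).1
        have h1' := (hcn q' f' hf' l' hl').1
        simp only [Sum.elim_inr] at heq
        rw [← heq] at h1'
        obtain rfl : q = q' := Subtype.ext (inCell_unique h1 h1')
        refine ⟨rfl, hinj f hf f' hf' l l' ?_⟩
        simp only [tubePos, add_right_inj, mul_assoc] at heq
        exact mul_left_cancel₀ (Int.natCast_ne_zero.2 hS.ne') heq

/-- Rounds are repeated until the deficit is below `η`. -/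
lemma exists_state {P : ℕ} (hP : 0 < P) {G : Fin n → Finset ℤ}
    (hG : ∀ i, (G i).Nonempty ∧ (∀ f ∈ G i, f ≠ 0) ∧
      ∀ f ∈ G i, ∀ g ∈ G i, ∀ l k : ℕ, f * (1 + P * l) = g * (1 + P * k) → f = g ∧ l = k)
    {w : Fin n → ℝ} {η : ℝ} (hη : 0 < η) (hw : ∀ i, 0 ≤ w i)
    (hW : ∑ i, ((G i).card : ℝ) * w i ≤ 1) :
    ∃ u φ, State P G u φ ∧ (∀ i, u i ≤ w i) ∧
      ∑ i, ((G i).card : ℝ) * w i - η ≤ ∑ i, ((G i).card : ℝ) * u i := by
  classical
  set M : ℝ := 1 + ∑ i, ∑ f ∈ G i, |(f : ℝ)| with hMdef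
  have hM : 0 < M := by positivity
  have hfM : ∀ i, ∀ f ∈ G i, |(f : ℝ)| ≤ M := fun i f hf => by
    have h1 := single_le_sum (f := fun f : ℤ => |(f : ℝ)|) (fun g _ => abs_nonneg _) hf
    have h2 := single_le_sum (f := fun i => ∑ f ∈ G i, |(f : ℝ)|)
      (fun j _ => sum_nonneg fun g _ => abs_nonneg _) (mem_univ i)
    linarith
  set C : ℝ := 1 + ∑ i, ((G i).card : ℝ) with hCdef
  have hC : 0 < C := by positivity
  have hgC : ∀ i, ((G i).card : ℝ) ≤ C := fun i => by
    have := single_le_sum (f := fun i => ((G i).card : ℝ)) (fun j _ => by positivity) (mem_univ i)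
    linarith
  set γ : ℝ := min (η / 2 / (3 * P * M)) (η / (n + 1) / C) with hγdef
  have hγ : 0 < γ := lt_min (by positivity) (by positivity)
  obtain ⟨K, hK⟩ := exists_nat_gt (1 / γ)
  obtain ⟨E₀, hE₀⟩ := exists_nat_gt (8 * C * K / η)
  set E := E₀ + 7
  have hE : 7 ≤ E := by omega
  have hδ : 4 * C * K / (E : ℝ) ≤ η / 2 := by
    have h1 : 8 * C * K / η ≤ (E : ℝ) := by
      refine hE₀.le.trans ?_
      exact_mod_cast Nat.le_add_right E₀ 7
    rw [div_le_iff₀ hη] at h1
    rw [div_le_iff₀ (by positivity)]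
    linarith
  have main : ∀ k : ℕ, k ≤ K →
      (∃ u φ, State P G u φ ∧ (∀ i, u i ≤ w i) ∧
        ∑ i, ((G i).card : ℝ) * w i - η ≤ ∑ i, ((G i).card : ℝ) * u i) ∨
      ∃ u φ, State P G u φ ∧ (∀ i, u i ≤ w i) ∧ k * γ ≤ ∑ i, ((G i).card : ℝ) * u i ∧
        1 - ∑ i, ((G i).card : ℝ) * u i - 4 * C * k / (E : ℝ) ≤ φ := by
    intro k
    induction k with
    | zero => exact fun _ => .inr ⟨0, 1, state_zero P G, by simpa using hw, by simp, by simp⟩
    | succ k ih =>
      intro hk
      rcases ih (by omega) with hdone | ⟨u, φ, hst, huw, hU, hφ⟩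
      · exact .inl hdone
      by_cases hdef : ∑ i, ((G i).card : ℝ) * w i - η ≤ ∑ i, ((G i).card : ℝ) * u i
      · exact .inl ⟨u, φ, hst, huw, hdef⟩
      right
      have hne : (univ : Finset (Fin n)).Nonempty := by
        rcases (univ : Finset (Fin n)).eq_empty_or_nonempty with h0 | h0
        · exfalso; apply hdef; rw [h0]; simp only [sum_empty]; linarith
        · exact h0
      obtain ⟨i, -, hi⟩ : ∃ i ∈ (univ : Finset (Fin n)),
          η / (n + 1) < ((G i).card : ℝ) * (w i - u i) := by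
        by_contra hcon
        push Not at hcon
        apply hdef
        have h1 := sum_le_sum hcon
        rw [sum_const, card_univ, Fintype.card_fin, nsmul_eq_mul] at h1
        simp only [mul_sub, sum_sub_distrib] at h1
        have : (n : ℝ) * (η / (n + 1)) ≤ η := by
          rw [mul_div_assoc', div_le_iff₀ (by positivity)]
          linarith
        linarith
      have hφ2 : η / 2 ≤ φ := by
        have : 4 * C * k / (E : ℝ) ≤ 4 * C * K / E := by gcongr; omega
        linarith
      have hv : η / (n + 1) / C ≤ w i - u i := by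
        rw [div_le_iff₀ hC]
        have := mul_le_mul_of_nonneg_right (hgC i) (sub_nonneg.2 (huw i))
        linarith
      have hv0 : 0 < w i - u i := lt_of_lt_of_le (by positivity) hv
      obtain ⟨a, ha1, ha2, hst'⟩ :=
        state_step hP (hG i).2.1 (hG i).2.2 hM (hfM i) hst (by linarith) hv0 hE
      have hsum : ∑ j, ((G j).card : ℝ) * (u j + if j = i then a else 0) =
          ∑ j, ((G j).card : ℝ) * u j + (G i).card * a := by
        simp [mul_add, sum_add_distrib]
      refine ⟨_, _, hst', fun j => ?_, ?_, ?_⟩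
      · rcases eq_or_ne j i with rfl | hji
        · rw [if_pos rfl]; linarith
        · rw [if_neg hji, add_zero]; exact huw j
      · have h1 : γ ≤ a := le_trans (min_le_min (by gcongr) hv) ha1
        have h2 : (1 : ℝ) ≤ (G i).card := by exact_mod_cast (hG i).1.card_pos
        have h3 := le_mul_of_one_le_left (hγ.le.trans h1) h2
        rw [hsum]
        push_cast
        linarith
      · have : 4 * ((G i).card : ℝ) / E ≤ 4 * C / E := by gcongr; exact hgC i
        have e : 4 * C * ((k + 1 : ℕ) : ℝ) / (E : ℝ) = 4 * C * k / E + 4 * C / E := by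
          push_cast; ring
        rw [hsum, e]
        linarith
  rcases main K le_rfl with hdone | ⟨u, φ, hst, huw, hU, -⟩
  · exact hdone
  · exfalso
    have h1 : ∑ i, ((G i).card : ℝ) * u i ≤ ∑ i, ((G i).card : ℝ) * w i :=
      sum_le_sum fun i _ => mul_le_mul_of_nonneg_left (huw i) (by positivity)
    rw [div_lt_iff₀ hγ] at hK
    linarith

end Pack

open Finset in
/-- Tubes of prescribed shapes and weights pack an interval. -/
theorem packGoal : PackGoal := by
  classical
  intro P n G w η hη hP hG hw hW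
  obtain ⟨u, φ, ⟨S, D, F, κ, hκ, sh, s, lam, -, -, -, -, hpos, hu, N₀, hc⟩, huw, hU⟩ :=
    Pack.exists_state hP hG hη hw hW
  let e := (Fintype.equivFin κ).symm
  refine ⟨Fintype.card κ, sh ∘ e, s ∘ e, lam ∘ e, fun k => hpos (e k), fun i => ?_, ?_, N₀,
    fun N hN => ?_⟩
  · refine le_of_eq_of_le ?_ (huw i)
    rw [← hu i, sum_filter, sum_filter]
    exact Equiv.sum_comp e fun k => if sh k = i then lam k else 0
  · refine hU.trans (le_of_eq ?_)
    simp only [Function.comp_apply]
    rw [Equiv.sum_comp e fun k => ((G (sh k)).card : ℝ) * lam k, ← Fintype.sum_fiberwise sh]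
    refine sum_congr rfl fun i _ => ?_
    rw [← hu i, mul_sum]
    rw [sum_subtype (univ.filter fun k => sh k = i) (p := fun k => sh k = i) (by simp)]
    exact sum_congr rfl fun k _ => by rw [k.2]
  · obtain ⟨c, hc1, hc2⟩ := hc N hN
    refine ⟨c ∘ e, fun k f hf l hl => (hc1 (e k) f hf l hl).1,
      fun k k' f hf f' hf' l l' hl hl' heq => ?_⟩
    obtain ⟨h1, h2⟩ := hc2 (e k) (e k') f hf f' hf' l l' hl hl' heq
    exact ⟨e.injective h1, h2⟩

end Vale.Agent.P130.Lebesgue
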