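import Vale.Agent.P130.Lebesgue.RankOne.Corr
import Vale.Agent.P130.Lebesgue.RankOne.Measure
import Vale.Agent.P130.Lebesgue.RankOne.Ergodic

/-! The rank one module: `RankOneGoal`. -/

noncomputable section

namespace Vale.Agent.P130.Lebesgue

open MeasureTheory Filter Skyscraper
open scoped ComplexConjugate Topology ENNReal

theorem rankOneGoal : RankOneGoal := by
  intro R hR
  obtain ⟨m, hm, hb, hs⟩ := exists_skyMeasure (R := R)
  have hfin : m Set.univ < ∞ := univ_lt_top hm hb hR
  have hne : m Set.univ ≠ 0 := univ_ne_zero hb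
  obtain ⟨c, hc, hc0, hctop⟩ : ∃ c : ℝ≥0∞, c = (m Set.univ)⁻¹ ∧ c ≠ 0 ∧ c ≠ ∞ :=
    ⟨_, rfl, ENNReal.inv_ne_zero.2 hfin.ne, ENNReal.inv_ne_top.2 hne⟩
  let μ : Measure (Sky R) := c • m
  have hprob : IsProbabilityMeasure μ := ⟨by
    rw [Measure.smul_apply, smul_eq_mul, hc, ENNReal.inv_mul_cancel hne hfin.ne]⟩
  have hS : MeasurePreserving (S R) μ μ := hm.smul_measure c
  have hT : MeasurePreserving (Skyscraper.T R) μ μ := hS.symm _
  have hlev : ∀ n l, l < R.h n → μ.real (level R n l) = c.toReal / P R n := by
    intro n l hl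
    rw [measureReal_def, Measure.smul_apply, smul_eq_mul, measure_level hm hb hl,
      ENNReal.toReal_mul, ENNReal.toReal_inv, ENNReal.toReal_natCast, div_eq_mul_inv]
  have hbase : ∀ n, μ.real (base R n) = c.toReal / P R n := by
    intro n
    rw [measureReal_def, Measure.smul_apply, smul_eq_mul, hb,
      ENNReal.toReal_mul, ENNReal.toReal_inv, ENNReal.toReal_natCast, div_eq_mul_inv]
  have hcpos : 0 < c.toReal := ENNReal.toReal_pos hc0 hctop
  have hstep : ∀ n, μ.real (base R (n + 1)) = μ.real (base R n) / R.p n := by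
    intro n
    rw [hbase, hbase, P_succ, Nat.cast_mul, div_div]
  refine ⟨Sky R, inferInstance, inferInstance, μ, hprob, fun q => ?_, Skyscraper.T R,
    Skyscraper.F R, fun k => μ.real (base R k), hT, fun k => ⟨?_, ?_, hstep k⟩, fun k => ?_,
    fun k a b => ?_, fun f hf hinv => ?_⟩
  · rw [Measure.smul_apply, hs, smul_eq_mul, mul_zero]
  · exact memLp_indicator_const 2 (measurableSet_base k) 1 (Or.inr (measure_ne_top _ _))
  · show 0 < μ.real (base R k)
    rw [hbase]
    exact div_pos hcpos (Nat.cast_pos.2 (P_pos R k))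
  · exact Eventually.of_forall fun x => F_succ k x
  · refine tendsto_corr hT ?_ hstep k a b
    simp only [hbase, div_eq_mul_inv]
    simpa using tendsto_inv_P.const_mul c.toReal
  · refine eq_const_of_levels hlev hf fun n l hl => ?_
    have h := hinv n (l : ℤ)
    have h1 : ∀ x, conj (Skyscraper.F R n (iter (Skyscraper.T R) (l : ℤ) x)) * f x =
        (level R n l).indicator f x := by
      intro x
      rw [F_apply_iter]
      by_cases hx : x ∈ level R n l <;> simp [hx]
    have h2 : ∀ x, conj (Skyscraper.F R n x) * f x = (base R n).indicator f x := by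
      intro x
      rw [Skyscraper.F]
      by_cases hx : x ∈ base R n <;> simp [hx]
    simp only [h1, h2] at h
    rwa [integral_indicator (measurableSet_level hl), integral_indicator (measurableSet_base n)]
      at h

end Vale.Agent.P130.Lebesgue
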