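import Vale.Agent.P130.Lebesgue.Spectral.Riesz
import Vale.Agent.P130.Lebesgue.Spectral.Hilbert

/-!
# The spectral module
-/

namespace Vale.Agent.P130.Lebesgue

/-- Flat spacers and the rank one systems give simple Lebesgue spectrum. -/
theorem spectralGoal : SpectralGoal := fun hR hF =>
  Hilb.simpleLebesgue_of_riesz hR (rieszGoal hF)

end Vale.Agent.P130.Lebesgue
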