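import Vale.Agent.P130.Lebesgue.Branch
import Vale.Agent.P130.Lebesgue.Coherent
import Vale.Agent.P130.Lebesgue.Flat
import Vale.Agent.P130.Lebesgue.Pack
import Vale.Agent.P130.Lebesgue.RankOne
import Vale.Agent.P130.Lebesgue.Spectral
import Vale.Agent.P130.Lebesgue.Tiling.Main

/-!
# Assembly of the construction of simple Lebesgue spectrum
-/

namespace Vale.Agent.P130.Lebesgue

/-- Spacers with polynomials flat in mean square. -/
theorem flatSpacerGoal : FlatSpacerGoal :=
  flat_of_coherent (coherent_of_modules branchGoal tilingGoal packGoal)

/-- Some automorphism of a standard nonatomic probability space has simple Lebesgue spectrum. -/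
theorem simpleLebesgueGoal : SimpleLebesgueGoal :=
  spectralGoal rankOneGoal flatSpacerGoal

end Vale.Agent.P130.Lebesgue
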